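import Vale.Agent.P111.TW.Rate

/-!
Walsh systems: the a priori bound for operators which factor through a Hilbert space.
-/

set_option linter.unusedSectionVars false

namespace Vale.Agent.P111.TW

open Finset Vale.Agent.P111 Vale.Agent.P111.TK

/-- Bessel's inequality for functions with values in a Hilbert space. -/
theorem bessel_hilbert {Ω ι H : Type*} [Fintype Ω] [Nonempty Ω] [Fintype ι] [DecidableEq ι]
    [NormedAddCommGroup H] [InnerProductSpace ℝ H] (u : ι → Ω → ℝ)
    (hu : ∀ i j, (avg fun ω => u i ω * u j ω) = if i = j then 1 else 0) (h : Ω → H) :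
    ∑ i, ‖avg fun ω => u i ω • h ω‖ ^ 2 ≤ avg fun ω => ‖h ω‖ ^ 2 := by
  classical
  set m : ι → H := fun i => avg fun ω => u i ω • h ω with hm
  have hin : ∀ (f : Ω → H) (v : H), inner ℝ (avg f) v = avg fun ω => inner ℝ (f ω) v := by
    intro f v
    have := map_avg ((innerSL ℝ v : H →L[ℝ] ℝ).toLinearMap) f
    simp only [ContinuousLinearMap.coe_coe, innerSL_apply_apply] at this
    rw [real_inner_comm, this]
    exact avg_congr fun ω => real_inner_comm _ _
  have h0 : 0 ≤ avg fun ω => ‖h ω - ∑ i, u i ω • m i‖ ^ 2 := avg_nonneg fun _ => sq_nonneg _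
  have h1 : ∀ ω, ‖h ω - ∑ i, u i ω • m i‖ ^ 2 = ‖h ω‖ ^ 2 -
      2 * ∑ i, inner ℝ (u i ω • h ω) (m i) +
      ∑ i, ∑ j, inner ℝ (m i) (m j) * (u i ω * u j ω) := by
    intro ω
    rw [norm_sub_sq_real, inner_sum]
    have e1 : ∀ i, inner ℝ (h ω) (u i ω • m i) = inner ℝ (u i ω • h ω) (m i) := by
      intro i
      rw [inner_smul_right, inner_smul_left]
      simp
    have e2 : ‖∑ i, u i ω • m i‖ ^ 2 = ∑ i, ∑ j, inner ℝ (m i) (m j) * (u i ω * u j ω) := by
      rw [← real_inner_self_eq_norm_sq, sum_inner]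
      refine Finset.sum_congr rfl fun i _ => ?_
      rw [inner_sum]
      refine Finset.sum_congr rfl fun j _ => ?_
      rw [inner_smul_left, inner_smul_right]
      simp
      ring
    rw [Finset.sum_congr rfl fun i _ => e1 i, e2]
  simp only [h1] at h0
  rw [avg_add, avg_sub, avg_mul_left, avg_sum, avg_sum] at h0
  have h2 : ∀ i, (avg fun ω => inner ℝ (u i ω • h ω) (m i)) = ‖m i‖ ^ 2 := by
    intro i
    rw [← hin, ← real_inner_self_eq_norm_sq]
  have h3 : ∀ i, (avg fun ω => ∑ j, inner ℝ (m i) (m j) * (u i ω * u j ω)) = ‖m i‖ ^ 2 := by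
    intro i
    rw [avg_sum]
    simp only [avg_mul_left, hu]
    rw [Finset.sum_eq_single i]
    · rw [if_pos rfl, mul_one, real_inner_self_eq_norm_sq]
    · intro j _ hj
      rw [if_neg (Ne.symm hj), mul_zero]
    · intro hi
      exact absurd (Finset.mem_univ i) hi
  rw [Finset.sum_congr rfl fun i _ => h2 i, Finset.sum_congr rfl fun i _ => h3 i] at h0
  linarith

/-- Operators which factor through a Hilbert space. -/
theorem countBd_hilbert {X : Type*} [NormedAddCommGroup X] [NormedSpace ℝ X] {H : Type*}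
    [NormedAddCommGroup H] [InnerProductSpace ℝ H] [CompleteSpace H] (a : X →L[ℝ] H)
    (b : H →L[ℝ] X) : CountBd (b.comp a) ((‖a‖ * ‖b‖) ^ 2) := by
  classical
  intro M' D B e he ν hν
  have hB0 : 0 ≤ B := (norm_nonneg _).trans (hν 1)
  -- the representing vectors
  set h : (Fin M' → Fin D → ℤˣ) → H := fun x =>
    (InnerProductSpace.toDual ℝ H).symm ((ν x).comp b) with hh
  have hhn : ∀ x, ‖h x‖ ≤ B * ‖b‖ := by
    intro x
    rw [hh, LinearIsometryEquiv.norm_map]
    exact (ContinuousLinearMap.opNorm_comp_le _ _).trans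
      (mul_le_mul_of_nonneg_right (hν x) (norm_nonneg _))
  have hνh : ∀ x y, ν x (b y) = inner ℝ (h x) y := by
    intro x y
    rw [hh, InnerProductSpace.toDual_symm_apply]
    rfl
  have hcoef : ∀ c : Fin M' → Fin D → ℤˣ,
      ‖avg fun x => Chi c x • (ν x).comp (b.comp a)‖ ≤ ‖a‖ * ‖avg fun x => Chi c x • h x‖ := by
    intro c
    refine ContinuousLinearMap.opNorm_le_bound _ (by positivity) fun y => ?_
    have h1 : (avg fun x => Chi c x • (ν x).comp (b.comp a)) y =
        inner ℝ (avg fun x => Chi c x • h x) (a y) := by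
      rw [avg_apply']
      have h2 := map_avg ((innerSL ℝ (a y) : H →L[ℝ] ℝ).toLinearMap) fun x => Chi c x • h x
      simp only [ContinuousLinearMap.coe_coe, innerSL_apply_apply] at h2
      rw [real_inner_comm, h2]
      refine avg_congr fun x => ?_
      rw [_root_.smul_apply, ContinuousLinearMap.comp_apply, ContinuousLinearMap.comp_apply, hνh,
        inner_smul_right, real_inner_comm, smul_eq_mul]
    rw [h1]
    calc ‖inner ℝ (avg fun x => Chi c x • h x) (a y)‖
        ≤ ‖avg fun x => Chi c x • h x‖ * ‖a y‖ := norm_inner_le_norm _ _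
      _ ≤ ‖avg fun x => Chi c x • h x‖ * (‖a‖ * ‖y‖) := by
          gcongr
          exact a.le_opNorm y
      _ = _ := by ring
  have hbes := bessel_hilbert (fun (c x : Fin M' → Fin D → ℤˣ) => Chi c x) avg_Chi_mul_Chi h
  have hav : (avg fun x => ‖h x‖ ^ 2) ≤ (B * ‖b‖) ^ 2 := by
    have h1 : (avg fun x => ‖h x‖ ^ 2) ≤
        avg fun _ : Fin M' → Fin D → ℤˣ => (B * ‖b‖) ^ 2 := by
      refine avg_mono fun x => ?_
      have := hhn x
      gcongr
    refine h1.trans (le_of_eq ?_)
    exact avg_const _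
  calc (#(Finset.univ.filter fun c : Fin M' → Fin D → ℤˣ =>
      e < ‖avg fun x => Chi c x • (ν x).comp (b.comp a)‖) : ℝ) * e ^ 2
      = ∑ _c ∈ Finset.univ.filter fun c : Fin M' → Fin D → ℤˣ =>
        e < ‖avg fun x => Chi c x • (ν x).comp (b.comp a)‖, e ^ 2 := by
        rw [Finset.sum_const, nsmul_eq_mul]
    _ ≤ ∑ c ∈ Finset.univ.filter fun c : Fin M' → Fin D → ℤˣ =>
        e < ‖avg fun x => Chi c x • (ν x).comp (b.comp a)‖,
        ‖a‖ ^ 2 * ‖avg fun x => Chi c x • h x‖ ^ 2 := by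
        refine Finset.sum_le_sum fun c hc => ?_
        rw [← mul_pow]
        have h1 := (Finset.mem_filter.mp hc).2.le.trans (hcoef c)
        gcongr
    _ ≤ ∑ c, ‖a‖ ^ 2 * ‖avg fun x => Chi c x • h x‖ ^ 2 :=
        Finset.sum_le_sum_of_subset_of_nonneg (Finset.filter_subset _ _)
          fun c _ _ => by positivity
    _ = ‖a‖ ^ 2 * ∑ c, ‖avg fun x => Chi c x • h x‖ ^ 2 := by rw [Finset.mul_sum]
    _ ≤ ‖a‖ ^ 2 * (B * ‖b‖) ^ 2 := by
        refine mul_le_mul_of_nonneg_left (hbes.trans hav) (by positivity)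
    _ = _ := by ring

end Vale.Agent.P111.TW
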