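import Vale.Agent.P111.TW.F
import Vale.Agent.P111.TW.Hilb

/-!
Final operator forms of the explicit rate for Walsh coefficients.
-/

namespace Vale.Agent.P111.TW

open Finset Vale.Agent.P111

universe v w

/-- The index in the cube of a set of coordinates. -/
def ind {D : ℕ} (S : Finset (Fin D)) : Fin D → ℤˣ := fun i => if i ∈ S then -1 else 1

theorem neg_ind {D : ℕ} (S : Finset (Fin D)) : TK.neg (ind S) = S := by
  ext i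
  by_cases h : i ∈ S <;> simp [TK.neg, ind, h]

theorem ind_inj {D : ℕ} : Function.Injective (ind : Finset (Fin D) → _) := by
  intro S S' h
  rw [← neg_ind S, ← neg_ind S', h]

theorem sg_chi_ind {D : ℕ} (S : Finset (Fin D)) (x : Fin D → ℤˣ) :
    sg (TK.chi (ind S) x) = ∏ i ∈ S, sg (x i) := by
  rw [TK.sg_chi, neg_ind]
  rfl

/-- The rate with an abstract count. -/
theorem op_rate_abs (q r C ε K : ℝ) (hq : 2 ≤ q) (hr : 2 ≤ r) (hε : 0 < ε) :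
    ∃ s : ℝ, 0 < s ∧ ∃ n₀ : ℕ, ∀ (X : Type v) [NormedAddCommGroup X] [NormedSpace ℝ X]
      (T : X →L[ℝ] X) (d : ℝ), 0 ≤ d → CountBd T d →
      CotypeWith q C X → CotypeWith r C (X →L[ℝ] ℝ) → ‖T‖ ≤ C →
      ∀ (D : ℕ) (θ : (Fin D → ℤˣ) → (X →L[ℝ] ℝ)), (∀ x, ‖θ x‖ ≤ 1) →
      ∀ Λ : Finset (Finset (Fin D)),
        (∀ S ∈ Λ, ε ≤ ‖avg fun x : Fin D → ℤˣ => (∏ i ∈ S, sg (x i)) • (θ x).comp T‖) →
        ∀ n ≥ n₀, 2 ^ n ≤ #Λ → K * Real.exp (s * n * Real.log n) ≤ d := by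
  classical
  obtain ⟨C', hC'⟩ : ∃ C' : ℝ, C' = max C 1 := ⟨_, rfl⟩
  have hC1 : 1 ≤ C' := hC' ▸ le_max_right _ _
  have hCC : C ≤ C' := hC' ▸ le_max_left _ _
  obtain ⟨ρ, hρ⟩ : ∃ ρ : ℝ, ρ = max (1 / ε) 1 := ⟨_, rfl⟩
  have hρ1 : 1 ≤ ρ := hρ ▸ le_max_right _ _
  have hρε : 1 / ρ ≤ ε := by
    rw [one_div]
    refine inv_le_of_inv_le₀ hε ?_
    rw [← one_div]
    exact hρ ▸ le_max_left _ _
  obtain ⟨A, a, hrate⟩ := rate q r C' ρ hq hr hC1 hρ1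
  obtain ⟨s, hs, n₀, hn₀⟩ := exists_R A a (max K 1) (le_max_right _ _)
  refine ⟨s, hs, n₀, ?_⟩
  intro X _ _ T d hd hcount hX hX' hT D θ hθ Λ hΛ n hn hcard
  obtain ⟨R, hR1, hR2⟩ := hn₀ n hn
  have h1 := hrate R X T d hd hcount (TK.CotypeWith.mono' hX hCC) (TK.CotypeWith.mono' hX' hCC)
    (hT.trans hCC) D θ hθ (Λ.image ind) (by
      intro b hb
      obtain ⟨S, hS, rfl⟩ := Finset.mem_image.1 hb
      refine hρε.trans ((hΛ S hS).trans (le_of_eq ?_))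
      unfold fc
      simp only [sg_chi_ind]) (by
      rw [Finset.card_image_of_injective _ ind_inj]
      exact (Nat.pow_le_pow_right (by norm_num) hR1).trans hcard)
  rw [Finset.card_image_of_injective _ ind_inj] at h1
  calc K * Real.exp (s * n * Real.log n) ≤ max K 1 * Real.exp (s * n * Real.log n) :=
        mul_le_mul_of_nonneg_right (le_max_left _ _) (Real.exp_pos _).le
    _ ≤ ((2:ℝ) ^ n) ^ R := hR2.le
    _ ≤ (#Λ : ℝ) ^ R := by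
        refine pow_le_pow_left₀ (by positivity) ?_ R
        exact_mod_cast hcard
    _ ≤ d := h1

/-- Operators of finite rank. -/
theorem op_rate (q r C ε : ℝ) (hq : 2 ≤ q) (hr : 2 ≤ r) (hε : 0 < ε) :
    ∃ s : ℝ, 0 < s ∧ ∃ n₀ : ℕ, ∀ (X : Type v) [NormedAddCommGroup X] [NormedSpace ℝ X]
      (T : X →L[ℝ] X), CotypeWith q C X → CotypeWith r C (X →L[ℝ] ℝ) → ‖T‖ ≤ C →
      FiniteDimensional ℝ (LinearMap.range (T : X →ₗ[ℝ] X)) →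
      ∀ (D : ℕ) (θ : (Fin D → ℤˣ) → (X →L[ℝ] ℝ)), (∀ x, ‖θ x‖ ≤ 1) →
      ∀ Λ : Finset (Finset (Fin D)),
        (∀ S ∈ Λ, ε ≤ ‖avg fun x : Fin D → ℤˣ => (∏ i ∈ S, sg (x i)) • (θ x).comp T‖) →
        ∀ n ≥ n₀, 2 ^ n ≤ #Λ → Real.exp (s * n * Real.log n) ≤
          Module.finrank ℝ (LinearMap.range (T : X →ₗ[ℝ] X)) := by
  obtain ⟨s, hs, n₀, h⟩ := op_rate_abs.{v} q r C ε (C ^ 2 + 1) hq hr hε
  refine ⟨s, hs, n₀, ?_⟩
  intro X _ _ T hX hX' hT hfd D θ hθ Λ hΛ n hn hcard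
  have h1 := h X T _ (by positivity) (countBd_finrank T hT) hX hX' hT D θ hθ Λ hΛ n hn hcard
  have h2 : 0 ≤ (Module.finrank ℝ (LinearMap.range (T : X →ₗ[ℝ] X)) : ℝ) := by positivity
  have h3 : (Module.finrank ℝ (LinearMap.range (T : X →ₗ[ℝ] X)) : ℝ) * C ^ 2 ≤
      (C ^ 2 + 1) * Module.finrank ℝ (LinearMap.range (T : X →ₗ[ℝ] X)) := by nlinarith
  exact le_of_mul_le_mul_left (h1.trans h3) (by positivity)

/-- Operators factoring through a Hilbert space. -/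
theorem hilb_rate (q r C ε : ℝ) (hq : 2 ≤ q) (hr : 2 ≤ r) (hε : 0 < ε) :
    ∃ s : ℝ, 0 < s ∧ ∃ n₀ : ℕ, ∀ (X : Type v) [NormedAddCommGroup X] [NormedSpace ℝ X]
      (H : Type w) [NormedAddCommGroup H] [InnerProductSpace ℝ H] [CompleteSpace H]
      (a : X →L[ℝ] H) (b : H →L[ℝ] X), CotypeWith q C X → CotypeWith r C (X →L[ℝ] ℝ) →
      ‖b.comp a‖ ≤ C →
      ∀ (D : ℕ) (θ : (Fin D → ℤˣ) → (X →L[ℝ] ℝ)), (∀ x, ‖θ x‖ ≤ 1) →
      ∀ Λ : Finset (Finset (Fin D)),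
        (∀ S ∈ Λ, ε ≤ ‖avg fun x : Fin D → ℤˣ => (∏ i ∈ S, sg (x i)) • (θ x).comp (b.comp a)‖) →
        ∀ n ≥ n₀, 2 ^ n ≤ #Λ → Real.exp (s * n * Real.log n) ≤ (‖a‖ * ‖b‖) ^ 2 := by
  obtain ⟨s, hs, n₀, h⟩ := op_rate_abs.{v} q r C ε 1 hq hr hε
  refine ⟨s, hs, n₀, ?_⟩
  intro X _ _ H _ _ _ a b hX hX' hT D θ hθ Λ hΛ n hn hcard
  have h1 := h X _ _ (by positivity) (countBd_hilbert a b) hX hX' hT D θ hθ Λ hΛ n hn hcard
  rwa [one_mul] at h1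

end Vale.Agent.P111.TW
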