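import Vale.Agent.P111.TK.Chi

/-!
Counting lemma: a bounded function with values in a `d`-dimensional subspace of a normed space
has at most `d (B / e)^2` generalised Fourier coefficients of norm larger than `e`.
-/

namespace Vale.Agent.P111.TW

open Finset Vale.Agent.P111

/-- `(trace P)^2 ≤ (rank P) ‖P‖_HS^2`. -/
theorem trace_sq_le {N : Type*} [Fintype N] (V : Submodule ℝ (EuclideanSpace ℝ N))
    (p : N → EuclideanSpace ℝ N) (hp : ∀ b, p b ∈ V) :
    (∑ b, p b b) ^ 2 ≤ (Module.finrank ℝ V : ℝ) * ∑ b, ‖p b‖ ^ 2 := by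
  classical
  set f := stdOrthonormalBasis ℝ V with hf
  have h1 : ∀ b, p b b = ∑ j, inner ℝ (f j : EuclideanSpace ℝ N) (p b) *
      (f j : EuclideanSpace ℝ N) b := by
    intro b
    have h := f.sum_repr' ⟨p b, hp b⟩
    have h' := congrArg (fun v : V => (v : EuclideanSpace ℝ N) b) h
    simp only [Submodule.coe_sum, Submodule.coe_smul, Submodule.coe_inner] at h'
    rw [← h']
    simp
  have h2 : ∀ b, ∑ j, inner ℝ (f j : EuclideanSpace ℝ N) (p b) ^ 2 = ‖p b‖ ^ 2 := by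
    intro b
    have h := f.sum_sq_norm_inner_right ⟨p b, hp b⟩
    simpa [Submodule.coe_inner] using h
  have h3 : ∀ j, ∑ b, ((f j : EuclideanSpace ℝ N) b) ^ 2 = 1 := by
    intro j
    have h : ‖(f j : EuclideanSpace ℝ N)‖ = 1 := f.orthonormal.1 j
    have h' := EuclideanSpace.real_norm_sq_eq (f j : EuclideanSpace ℝ N)
    rw [← h', h, one_pow]
  calc (∑ b, p b b) ^ 2 = (∑ z : N × Fin (Module.finrank ℝ V),
        inner ℝ (f z.2 : EuclideanSpace ℝ N) (p z.1) * (f z.2 : EuclideanSpace ℝ N) z.1) ^ 2 := by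
        rw [Fintype.sum_prod_type]
        simp only [h1]
    _ ≤ (∑ z : N × Fin (Module.finrank ℝ V), inner ℝ (f z.2 : EuclideanSpace ℝ N) (p z.1) ^ 2) *
        ∑ z : N × Fin (Module.finrank ℝ V), ((f z.2 : EuclideanSpace ℝ N) z.1) ^ 2 :=
        Finset.sum_mul_sq_le_sq_mul_sq _ _ _
    _ = (∑ b, ‖p b‖ ^ 2) * (Module.finrank ℝ V : ℝ) := by
        rw [Fintype.sum_prod_type, Fintype.sum_prod_type_right]
        simp only [h2, h3]
        simp
    _ = _ := mul_comm _ _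

/-- The counting lemma. -/
theorem count {Ω ι W : Type*} [Fintype Ω] [Nonempty Ω] [Fintype ι] [DecidableEq ι]
    [NormedAddCommGroup W] [NormedSpace ℝ W] (Y : Submodule ℝ W) [FiniteDimensional ℝ Y]
    {B e : ℝ} (he : 0 < e) (ν : Ω → W) (hY : ∀ ω, ν ω ∈ Y) (hB : ∀ ω, ‖ν ω‖ ≤ B)
    (u : ι → Ω → ℝ) (hu : ∀ b b', (avg fun ω => u b ω * u b' ω) = if b = b' then 1 else 0) :
    (#{b | e < ‖avg fun ω => u b ω • ν ω‖} : ℝ) * e ^ 2 ≤
      (Module.finrank ℝ Y : ℝ) * B ^ 2 := by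
  classical
  have hB0 : 0 ≤ B := (norm_nonneg _).trans (hB (Classical.arbitrary Ω))
  set m : ι → W := fun b => avg fun ω => u b ω • ν ω with hm
  set S : Finset ι := {b | e < ‖m b‖} with hS
  have hmem : ∀ b, m b ∈ Y := by
    intro b
    rw [hm]
    simp only [avg]
    exact Y.smul_mem _ (Y.sum_mem fun ω _ => Y.smul_mem _ (hY ω))
  have hv : ∀ b : ι, ∃ v : W →L[ℝ] ℝ, ‖v‖ ≤ 1 ∧ v (m b) = ‖m b‖ := by
    intro b
    obtain ⟨g, hg1, hg2⟩ := exists_dual_vector'' ℝ (m b)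
    exact ⟨g, hg1, by simpa using hg2⟩
  choose v hv1 hv2 using hv
  -- the linear map from functionals to vectors
  let L : (Y →ₗ[ℝ] ℝ) →ₗ[ℝ] EuclideanSpace ℝ S :=
    { toFun := fun φ => WithLp.toLp 2 fun b : S => φ ⟨m b, hmem b⟩
      map_add' := by
        intro φ ψ
        ext b
        simp
      map_smul' := by
        intro c φ
        ext b
        simp }
  have hrank : Module.finrank ℝ (LinearMap.range L) ≤ Module.finrank ℝ Y := by
    calc Module.finrank ℝ (LinearMap.range L) ≤ Module.finrank ℝ (Y →ₗ[ℝ] ℝ) :=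
          LinearMap.finrank_range_le L
      _ = Module.finrank ℝ Y := Subspace.dual_finrank_eq
  let p : S → EuclideanSpace ℝ S := fun b' => L ((v b').toLinearMap.comp Y.subtype)
  have hpv : ∀ b' b : S, p b' b = v b' (m b) := by
    intro b' b
    rfl
  have h1 := trace_sq_le (LinearMap.range L) p (fun b => LinearMap.mem_range_self L _)
  have h2 : ∀ b' : S, ‖p b'‖ ^ 2 ≤ B ^ 2 := by
    intro b'
    rw [EuclideanSpace.real_norm_sq_eq]
    have hb : ∑ b : S, (p b' b) ^ 2 = ∑ b ∈ S, (avg fun ω => u b ω * v b' (ν ω)) ^ 2 := by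
      rw [← Finset.sum_coe_sort S fun b => (avg fun ω => u b ω * v b' (ν ω)) ^ 2]
      refine Finset.sum_congr rfl fun b _ => ?_
      rw [hpv, hm]
      simp only [avg, map_smul, map_sum, smul_eq_mul]
    rw [hb]
    calc ∑ b ∈ S, (avg fun ω => u b ω * v b' (ν ω)) ^ 2
        ≤ ∑ b, (avg fun ω => u b ω * v b' (ν ω)) ^ 2 :=
          Finset.sum_le_sum_of_subset_of_nonneg (Finset.subset_univ _) fun _ _ _ => sq_nonneg _
      _ ≤ avg fun ω => (v b' (ν ω)) ^ 2 := TK.bessel u hu _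
      _ ≤ avg fun _ : Ω => B ^ 2 := by
          refine avg_mono fun ω => ?_
          rw [← sq_abs]
          refine pow_le_pow_left₀ (abs_nonneg _) ?_ 2
          rw [← Real.norm_eq_abs]
          calc ‖v b' (ν ω)‖ ≤ ‖v b'‖ * ‖ν ω‖ := (v b').le_opNorm _
            _ ≤ 1 * B := mul_le_mul (hv1 _) (hB ω) (norm_nonneg _) zero_le_one
            _ = B := one_mul B
      _ = B ^ 2 := avg_const _
  have h3 : (#S : ℝ) * e ≤ ∑ b : S, p b b := by
    calc (#S : ℝ) * e = ∑ _b : S, e := by simp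
      _ ≤ ∑ b : S, p b b := by
        refine Finset.sum_le_sum fun b _ => ?_
        rw [hpv, hv2]
        have := b.2
        simp only [hS, Finset.mem_filter, Finset.mem_univ, true_and] at this
        exact this.le
  have h4 : ∑ b : S, ‖p b‖ ^ 2 ≤ #S * B ^ 2 := by
    calc ∑ b : S, ‖p b‖ ^ 2 ≤ ∑ _b : S, B ^ 2 := Finset.sum_le_sum fun b _ => h2 b
      _ = #S * B ^ 2 := by simp
  have h5 : ((#S : ℝ) * e) ^ 2 ≤ (Module.finrank ℝ Y : ℝ) * (#S * B ^ 2) := by
    calc ((#S : ℝ) * e) ^ 2 ≤ (∑ b : S, p b b) ^ 2 :=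
          pow_le_pow_left₀ (by positivity) h3 2
      _ ≤ _ := h1
      _ ≤ (Module.finrank ℝ Y : ℝ) * (#S * B ^ 2) := by
          have : (Module.finrank ℝ (LinearMap.range L) : ℝ) ≤ Module.finrank ℝ Y := by
            exact_mod_cast hrank
          exact mul_le_mul this h4 (Finset.sum_nonneg fun _ _ => sq_nonneg _) (by positivity)
  rcases Nat.eq_zero_or_pos #S with h0 | h0
  · rw [h0]
    simp only [Nat.cast_zero, zero_mul]
    positivity
  · have hS0 : (0 : ℝ) < #S := by exact_mod_cast h0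
    have h6 : (#S : ℝ) * (#S * e ^ 2) ≤ #S * ((Module.finrank ℝ Y : ℝ) * B ^ 2) := by
      nlinarith [h5]
    exact le_of_mul_le_mul_left h6 hS0

/-- The counting lemma for the characters of a power of the cube. -/
theorem count_Chi {M' D : ℕ} {W : Type*} [NormedAddCommGroup W] [NormedSpace ℝ W]
    (Y : Submodule ℝ W) [FiniteDimensional ℝ Y] {B e : ℝ} (he : 0 < e)
    (ν : (Fin M' → Fin D → ℤˣ) → W) (hY : ∀ x, ν x ∈ Y) (hB : ∀ x, ‖ν x‖ ≤ B) :
    (#{b : Fin M' → Fin D → ℤˣ | e < ‖avg fun x => TK.Chi b x • ν x‖} : ℝ) * e ^ 2 ≤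
      (Module.finrank ℝ Y : ℝ) * B ^ 2 :=
  count Y he ν hY hB (fun b x => TK.Chi b x) fun b b' => TK.avg_Chi_mul_Chi b b'

end Vale.Agent.P111.TW
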