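import Vale.Agent.P111.TW.Step
import Vale.Agent.P111.TW.Count

/-!
Walsh systems: the number of large Fourier coefficients of `T^* θ` for `T` of finite rank.
-/

namespace Vale.Agent.P111.TW

open Finset Vale.Agent.P111 Vale.Agent.P111.TK

variable {D : ℕ} {X : Type*} [NormedAddCommGroup X] [NormedSpace ℝ X]

/-- Functionals which factor through `T`. -/
noncomputable def fac (T : X →L[ℝ] X) :
    (LinearMap.range (T : X →ₗ[ℝ] X) →L[ℝ] ℝ) →ₗ[ℝ] (X →L[ℝ] ℝ) where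
  toFun ψ := ψ.comp (T.codRestrict (LinearMap.range (T : X →ₗ[ℝ] X))
    (fun x => LinearMap.mem_range_self (T : X →ₗ[ℝ] X) x))
  map_add' _ _ := rfl
  map_smul' _ _ := rfl

theorem comp_mem (T : X →L[ℝ] X) (φ : X →L[ℝ] ℝ) : φ.comp T ∈ LinearMap.range (fac T) := by
  refine ⟨φ.comp (LinearMap.range (T : X →ₗ[ℝ] X)).subtypeL, ?_⟩
  ext x
  rfl

theorem count_fc (T : X →L[ℝ] X) [FiniteDimensional ℝ (LinearMap.range (T : X →ₗ[ℝ] X))]
    {C e : ℝ} (hT : ‖T‖ ≤ C) (he : 0 < e) (θ : (Fin D → ℤˣ) → (X →L[ℝ] ℝ))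
    (hθ : ∀ x, ‖θ x‖ ≤ 1) :
    (#(Finset.univ.filter fun b => e ≤ ‖fc T θ b‖) : ℝ) * (e / 2) ^ 2 ≤
      (Module.finrank ℝ (LinearMap.range (T : X →ₗ[ℝ] X)) : ℝ) * C ^ 2 := by
  classical
  set R := LinearMap.range (T : X →ₗ[ℝ] X) with hR
  have hfd : FiniteDimensional ℝ (R →L[ℝ] ℝ) :=
    (LinearMap.toContinuousLinearMap (𝕜 := ℝ) (E := R) (F' := ℝ)).finiteDimensional
  have hfin : FiniteDimensional ℝ (LinearMap.range (fac T)) := inferInstance
  have hrank : Module.finrank ℝ (LinearMap.range (fac T)) ≤ Module.finrank ℝ R := by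
    refine (LinearMap.finrank_range_le (fac T)).trans (le_of_eq ?_)
    exact finrank_dual R
  have hθT : ∀ x, ‖(θ x).comp T‖ ≤ C := fun x => by
    have h0 : 0 ≤ C := (norm_nonneg _).trans hT
    refine (ContinuousLinearMap.opNorm_comp_le _ _).trans ?_
    calc ‖θ x‖ * ‖T‖ ≤ 1 * C := mul_le_mul (hθ x) hT (norm_nonneg _) zero_le_one
      _ = C := one_mul C
  have h1 := count (LinearMap.range (fac T)) (half_pos he) (fun x => (θ x).comp T)
    (fun x => comp_mem T (θ x)) hθT (fun (b x : Fin D → ℤˣ) => sg (chi b x))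
    (fun b b' => avg_chi_mul_chi b b')
  have h2 : (Finset.univ.filter fun b => e ≤ ‖fc T θ b‖) ⊆
      Finset.univ.filter fun b : Fin D → ℤˣ =>
        e / 2 < ‖avg fun x => sg (chi b x) • (θ x).comp T‖ := by
    intro b hb
    rw [Finset.mem_filter] at hb ⊢
    refine ⟨hb.1, lt_of_lt_of_le (half_lt_self he) hb.2⟩
  calc (#(Finset.univ.filter fun b => e ≤ ‖fc T θ b‖) : ℝ) * (e / 2) ^ 2
      ≤ (#(Finset.univ.filter fun b : Fin D → ℤˣ =>
        e / 2 < ‖avg fun x => sg (chi b x) • (θ x).comp T‖) : ℝ) * (e / 2) ^ 2 := by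
        gcongr
    _ ≤ (Module.finrank ℝ (LinearMap.range (fac T)) : ℝ) * C ^ 2 := h1
    _ ≤ _ := by gcongr

end Vale.Agent.P111.TW
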