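import Vale.Agent.P111.TW.Asm
import Vale.Agent.P111.SY.Final
import Vale.Agent.P111.TK.Lift

/-!
Walsh systems: the step of the iteration.
-/

set_option linter.unusedSectionVars false

namespace Vale.Agent.P111.TW

open Finset Vale.Agent.P111 Vale.Agent.P111.TK

/-- Generic tuples exist. -/
def Generic (M M' : ℕ) (L : ℝ) : Prop :=
  ∀ (D : ℕ) (Λ : Finset (Fin D → ℤˣ)) (B : Finset (Fin M' → Fin D → ℤˣ)), L ≤ #Λ →
    L * #B < (#Λ : ℝ) ^ 2 → ∃ J : Fin M → Fin D → ℤˣ, (∀ i, J i ∈ Λ) ∧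
      (∀ T : Finset (Fin M), T.Nonempty → JT J T ≠ 1) ∧
      ∀ g : Fin M' → Finset (Fin M), Two g → JG J g ∉ B

section

variable {D M M' : ℕ} {X : Type*} [NormedAddCommGroup X] [NormedSpace ℝ X]

/-- The Fourier coefficients of `T^* θ`. -/
noncomputable def fc (T : X →L[ℝ] X) (θ : (Fin D → ℤˣ) → (X →L[ℝ] ℝ)) (b : Fin D → ℤˣ) :
    X →L[ℝ] ℝ :=
  avg fun x : Fin D → ℤˣ => sg (chi b x) • (θ x).comp T

/-- Flattening. -/
def flat (M' D : ℕ) : (Fin M' → Fin D → ℤˣ) ≃ (Fin (M' * D) → ℤˣ) :=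
  (Equiv.curry (Fin M') (Fin D) ℤˣ).symm.trans (finProdFinEquiv.arrowCongr (Equiv.refl ℤˣ))

theorem flat_apply (x : Fin M' → Fin D → ℤˣ) (p : Fin M' × Fin D) :
    flat M' D x (finProdFinEquiv p) = x p.1 p.2 := by
  simp [flat, Equiv.arrowCongr, Function.uncurry]

theorem chi_flat (b x : Fin M' → Fin D → ℤˣ) :
    sg (chi (flat M' D b) (flat M' D x)) = Chi b x := by
  rw [chi_eq, Chi, H1.sg_prod, ← finProdFinEquiv.prod_comp]
  simp only [flat_apply]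
  rw [Fintype.prod_prod_type]
  refine Finset.prod_congr rfl fun k _ => ?_
  rw [chi_eq, H1.sg_prod]

theorem exists_unit (φ : X →L[ℝ] ℝ) {ρ : ℝ} (hρ : 1 ≤ ρ) (h : 1 / ρ ≤ ‖φ‖) :
    ∃ x : X, ‖x‖ ≤ 2 * ρ ∧ φ x = 1 := by
  have hρ0 : 0 < ρ := by linarith
  have h1 : 1 / (2 * ρ) < ‖φ‖ := by
    refine lt_of_lt_of_le ?_ h
    rw [one_div_lt_one_div (by positivity) hρ0]
    linarith
  obtain ⟨x, hx, hxφ⟩ := ContinuousLinearMap.exists_lt_apply_of_lt_opNorm φ h1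
  have h2 : 0 < ‖φ x‖ := lt_trans (by positivity) hxφ
  have h3 : φ x ≠ 0 := norm_pos_iff.mp h2
  refine ⟨(φ x)⁻¹ • x, ?_, ?_⟩
  · rw [norm_smul, norm_inv]
    calc ‖φ x‖⁻¹ * ‖x‖ ≤ (1 / (2 * ρ))⁻¹ * 1 := by gcongr
      _ = 2 * ρ := by rw [one_div, inv_inv, mul_one]
  · rw [map_smul, smul_eq_mul, inv_mul_cancel₀ h3]

theorem wc_comp (T : X →L[ℝ] X) (U : Finset (Fin M')) (ν : (Fin M' → ℤˣ) → (X →L[ℝ] ℝ)) :
    wc U (fun δ => (ν δ).comp T) = (wc U ν).comp T := by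
  ext y
  rw [wc_apply', ContinuousLinearMap.comp_apply, wc_apply']
  rfl

theorem numerics2 {C ρ a a' : ℝ} (hC : 1 ≤ C) (hρ : 1 ≤ ρ) (ha : 1 ≤ a) (ha' : 1 ≤ a') :
    3 * C * (2 * ρ) * a * (3 * C * a' * C) ≤
      6 * C ^ 2 * ρ * a * (6 * C ^ 2 * ρ * a') ∧
    3 * C * (2 * ρ) * a * (3 * C * a' * C) + 3 * C * (2 * ρ) * a ≤
      6 * C ^ 2 * ρ * a * (6 * C ^ 2 * ρ * a') := by
  have hC0 : 0 ≤ C := by linarith
  have hρ0 : 0 ≤ ρ := by linarith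
  have ha0 : 0 ≤ a := by linarith
  have ha0' : 0 ≤ a' := by linarith
  have h1 : 1 ≤ C ^ 2 := one_le_pow₀ hC
  have h2 : 1 ≤ C ^ 2 * ρ := one_le_mul_of_one_le_of_one_le h1 hρ
  have h3 : 3 * C * a' * C + 1 ≤ 6 * C ^ 2 * ρ * a' := by
    have e1 : 1 ≤ C ^ 2 * ρ * a' := one_le_mul_of_one_le_of_one_le h2 ha'
    have e2 : C ^ 2 * a' ≤ C ^ 2 * ρ * a' := by
      have : C ^ 2 * 1 * a' ≤ C ^ 2 * ρ * a' := by gcongr
      linarith
    nlinarith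
  have h4 : 3 * C * (2 * ρ) * a ≤ 6 * C ^ 2 * ρ * a := by
    have : C * ρ * a ≤ C ^ 2 * ρ * a := by
      have e3 : C ≤ C ^ 2 := by nlinarith
      gcongr
    nlinarith
  have h5 : 3 * C * (2 * ρ) * a * (3 * C * a' * C + 1) ≤
      6 * C ^ 2 * ρ * a * (6 * C ^ 2 * ρ * a') :=
    mul_le_mul h4 h3 (by positivity) (by positivity)
  constructor
  · refine le_trans ?_ h5
    have : 0 ≤ 3 * C * (2 * ρ) * a := by positivity
    nlinarith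
  · refine le_trans (le_of_eq ?_) h5
    ring

/-- The contradiction. -/
theorem no_good (q r C ρ : ℝ) (hq : 2 ≤ q) (hr : 2 ≤ r) (hC : 1 ≤ C) (hρ : 1 ≤ ρ) :
    ∃ M M' : ℕ, M ≠ 0 ∧ M' ≠ 0 ∧ ∀ (X : Type*) [NormedAddCommGroup X] [NormedSpace ℝ X]
      (T : X →L[ℝ] X), CotypeWith r C (X →L[ℝ] ℝ) → ‖T‖ ≤ C →
      ∀ (D : ℕ) (θ : (Fin D → ℤˣ) → (X →L[ℝ] ℝ)), (∀ x, ‖θ x‖ ≤ 1) →
      ∀ (ν : (Fin M' → Fin D → ℤˣ) → (Fin M' → ℤˣ) → (X →L[ℝ] ℝ)),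
      (∀ x δ, ‖ν x δ‖ ≤ 3 * C * (M' : ℝ) ^ (1 - 1 / q)) → (∀ x δ, ν x (-δ) = - ν x δ) →
      (∀ x k, wc {k} (ν x) = θ (x k)) →
      ∀ J : Fin M → Fin D → ℤˣ, (∀ T : Finset (Fin M), T.Nonempty → JT J T ≠ 1) →
      (∀ i, 1 / ρ ≤ ‖fc T θ (J i)‖) →
      ¬ ∀ g : Fin M' → Finset (Fin M), Two g →
        ‖nh (fun x δ => (ν x δ).comp T) (oddU g) (JG J g)‖ ≤ (((2 : ℝ) ^ M) ^ M')⁻¹ := by
  have hC0 : 0 ≤ C := by linarith
  have hρ0 : 0 ≤ ρ := by linarith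
  have hC₁ : 1 ≤ 6 * C ^ 2 * ρ := by
    have h1 : 1 ≤ C ^ 2 := one_le_pow₀ hC
    have h2 : 1 ≤ C ^ 2 * ρ := one_le_mul_of_one_le_of_one_le h1 hρ
    linarith
  obtain ⟨M, M', hM, hM', hcore⟩ := SY.vcore' q r (6 * C ^ 2 * ρ) hq hr hC₁
  refine ⟨M, M', hM, hM', ?_⟩
  intro X _ _ T hX' hT D θ hθ ν hν hνo hνk J hJ hJρ hgen
  obtain ⟨a, ha⟩ : ∃ a : ℝ, a = (M : ℝ) ^ (1 - 1 / r) := ⟨_, rfl⟩
  obtain ⟨a', ha'⟩ : ∃ a' : ℝ, a' = (M' : ℝ) ^ (1 - 1 / q) := ⟨_, rfl⟩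
  have ha1 : 1 ≤ a := by rw [ha]; exact SY.rpow_ge_one hM hr
  have ha1' : 1 ≤ a' := by rw [ha']; exact SY.rpow_ge_one hM' hq
  rw [← ha, ← ha'] at hcore
  rw [← ha'] at hν
  choose e he1 he2 using fun i => exists_unit (fc T θ (J i)) hρ (hJρ i)
  obtain ⟨Z, hZ1, hZ2, hZ3⟩ := lift_sup hr hC0 (by positivity : 0 ≤ 2 * ρ) hX'
    (fun i => NormedSpace.inclusionInDoubleDual ℝ X (e i)) (fun i =>
      (NormedSpace.double_dual_bound ℝ X (e i)).trans (he1 i))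
  rw [← ha] at hZ1
  have hν' : ∀ x δ, ‖(ν x δ).comp T‖ ≤ 3 * C * a' * C := fun x δ =>
    (ContinuousLinearMap.opNorm_comp_le _ _).trans
      (mul_le_mul (hν x δ) hT (norm_nonneg _) (by positivity))
  have hη : ∀ x, ‖(θ x).comp T‖ ≤ C := fun x => by
    refine (ContinuousLinearMap.opNorm_comp_le _ _).trans ?_
    calc ‖θ x‖ * ‖T‖ ≤ 1 * C := mul_le_mul (hθ x) hT (norm_nonneg _) zero_le_one
      _ = C := one_mul C
  have hνo' : ∀ (x : Fin M' → Fin D → ℤˣ) (δ : Fin M' → ℤˣ),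
      (ν x (-δ)).comp T = -((ν x δ).comp T) := by
    intro x δ
    rw [hνo]
    rfl
  have hνk' : ∀ (x : Fin M' → Fin D → ℤˣ) (k : Fin M'),
      wc {k} (fun δ => (ν x δ).comp T) = (θ (x k)).comp T := by
    intro x k
    rw [wc_comp, hνk]
  have hζη : ∀ i, (wc {i} Z) (avg fun x : Fin D → ℤˣ =>
      sg (chi (J i) x) • (θ x).comp T) = 1 := by
    intro i
    rw [hZ3 i]
    exact he2 i
  have hE : (0:ℝ) < ((2 : ℝ) ^ M) ^ M' := by positivity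
  have hyp := vhyp (ν := fun x δ => (ν x δ).comp T) (η := fun x => (θ x).comp T) hJ hη hζη hZ1
    hν' (inv_nonneg.mpr hE.le) hZ2 hνo' hνk' hgen
  refine hcore _ _ (hyp.mono ?_ ?_ ?_)
  · have : 3 * C * (2 * ρ) * a * C = 6 * C ^ 2 * ρ * a := by ring
    exact this.le
  · exact (numerics2 hC hρ ha1 ha1').1
  · refine le_trans (le_of_eq ?_) (numerics2 hC hρ ha1 ha1').2
    have h1 : ((2 : ℝ) ^ M) ^ M' * (3 * C * (2 * ρ) * a * (((2 : ℝ) ^ M) ^ M')⁻¹) =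
        3 * C * (2 * ρ) * a := by
      field_simp
    rw [h1]

theorem fc_flat (T : X →L[ℝ] X) (ν : (Fin M' → Fin D → ℤˣ) → (Fin M' → ℤˣ) → (X →L[ℝ] ℝ))
    (U : Finset (Fin M')) (s : ℝ) (b : Fin M' → Fin D → ℤˣ) :
    fc T (fun y => s • wc U (ν ((flat M' D).symm y))) (flat M' D b) =
      s • nh (fun x δ => (ν x δ).comp T) U b := by
  rw [fc, ← avg_comp_equiv (flat M' D), nh, ← avg_smul]
  refine avg_congr fun x => ?_
  rw [chi_flat, Equiv.symm_apply_apply, wc_comp, ContinuousLinearMap.smul_comp, smul_comm]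

/-- The step of the iteration. -/
theorem step_of (hgen : ∀ M M' : ℕ, ∃ L : ℝ, 1 ≤ L ∧ Generic M M' L) (q r C ρ : ℝ)
    (hq : 2 ≤ q) (hr : 2 ≤ r) (hC : 1 ≤ C) (hρ : 1 ≤ ρ) :
    ∃ L : ℝ, 1 ≤ L ∧ ∀ (X : Type*) [NormedAddCommGroup X] [NormedSpace ℝ X]
      (T : X →L[ℝ] X), CotypeWith q C X → CotypeWith r C (X →L[ℝ] ℝ) → ‖T‖ ≤ C →
      ∀ (D : ℕ) (θ : (Fin D → ℤˣ) → (X →L[ℝ] ℝ)), (∀ x, ‖θ x‖ ≤ 1) →
      ∀ Λ : Finset (Fin D → ℤˣ), (∀ b ∈ Λ, 1 / ρ ≤ ‖fc T θ b‖) → L ≤ #Λ →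
      ∃ (D' : ℕ) (θ' : (Fin D' → ℤˣ) → (X →L[ℝ] ℝ)), (∀ x, ‖θ' x‖ ≤ 1) ∧
        (#Λ : ℝ) ^ 2 ≤ L * #(Finset.univ.filter fun b => 1 / L ≤ ‖fc T θ' b‖) := by
  classical
  obtain ⟨M, M', hM, hM', hno⟩ := no_good q r C ρ hq hr hC hρ
  obtain ⟨L₀, hL₀1, hL₀⟩ := hgen M M'
  have hC0 : 0 ≤ C := by linarith
  obtain ⟨e', he'⟩ : ∃ e' : ℝ, e' = (((2 : ℝ) ^ M) ^ M')⁻¹ := ⟨_, rfl⟩
  have he'0 : 0 < e' := by rw [he']; positivity
  obtain ⟨β, hβ⟩ : ∃ β : ℝ, β = 3 * C * (M' : ℝ) ^ (1 - 1 / q) := ⟨_, rfl⟩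
  have hβ1 : 1 ≤ β := by
    rw [hβ]
    have := SY.rpow_ge_one hM' hq
    nlinarith
  have hβ0 : 0 < β := by linarith
  refine ⟨L₀ * 2 ^ M' + β / e', ?_, ?_⟩
  · have h1 : (1:ℝ) ≤ 2 ^ M' := one_le_pow₀ (by norm_num)
    have h2 : 0 ≤ β / e' := by positivity
    nlinarith
  intro X _ _ T hX hX' hT D θ hθ Λ hΛ hLΛ
  have h2M' : (1:ℝ) ≤ 2 ^ M' := one_le_pow₀ (by norm_num)
  have hβe : 0 ≤ β / e' := by positivity
  have hlift : ∀ x : Fin M' → Fin D → ℤˣ, ∃ ν : (Fin M' → ℤˣ) → (X →L[ℝ] ℝ),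
      (∀ δ, ‖ν δ‖ ≤ 3 * C * 1 * (M' : ℝ) ^ (1 - 1 / q)) ∧ (∀ δ, ν (-δ) = - ν δ) ∧
      ∀ k, wc {k} ν = θ (x k) := fun x =>
    lift_sup hq hC0 zero_le_one hX (fun k => θ (x k)) (fun k => hθ (x k))
  choose ν hν1 hν2 hν3 using hlift
  simp only [mul_one] at hν1
  -- the bad set
  set B : Finset (Fin M' → Fin D → ℤˣ) := Finset.univ.filter fun b =>
    ∃ U, e' < ‖nh (fun x δ => (ν x δ).comp T) U b‖ with hB
  have hkey : (#Λ : ℝ) ^ 2 ≤ L₀ * #B := by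
    by_contra hlt
    rw [not_le] at hlt
    obtain ⟨J, hJΛ, hJ, hJB⟩ := hL₀ D Λ B (by nlinarith) hlt
    refine hno X T hX' hT D θ hθ ν hν1 hν2 hν3 J hJ (fun i => hΛ _ (hJΛ i)) fun g hg => ?_
    have h1 := hJB g hg
    rw [hB, Finset.mem_filter, not_and] at h1
    have h2 := h1 (Finset.mem_univ _)
    push Not at h2
    rw [← he']
    exact h2 (oddU g)
  -- one `U` is responsible for many of them
  have hU : ∃ U : Finset (Fin M'), (#B : ℝ) ≤ 2 ^ M' *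
      #(Finset.univ.filter fun b : Fin M' → Fin D → ℤˣ =>
        e' < ‖nh (fun x δ => (ν x δ).comp T) U b‖) := by
    by_contra hc
    push Not at hc
    have h1 : (#B : ℝ) ≤ ∑ U : Finset (Fin M'),
        (#(Finset.univ.filter fun b : Fin M' → Fin D → ℤˣ =>
          e' < ‖nh (fun x δ => (ν x δ).comp T) U b‖) : ℝ) := by
      have h2 : B ⊆ Finset.univ.biUnion fun U : Finset (Fin M') =>
          Finset.univ.filter fun b : Fin M' → Fin D → ℤˣ =>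
            e' < ‖nh (fun x δ => (ν x δ).comp T) U b‖ := by
        intro b hb
        rw [hB, Finset.mem_filter] at hb
        obtain ⟨U, hU⟩ := hb.2
        rw [Finset.mem_biUnion]
        exact ⟨U, Finset.mem_univ _, Finset.mem_filter.mpr ⟨Finset.mem_univ _, hU⟩⟩
      exact_mod_cast (Finset.card_le_card h2).trans Finset.card_biUnion_le
    have h3 : ∑ U : Finset (Fin M'),
        (#(Finset.univ.filter fun b : Fin M' → Fin D → ℤˣ =>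
          e' < ‖nh (fun x δ => (ν x δ).comp T) U b‖) : ℝ) <
        ∑ _U : Finset (Fin M'), (#B : ℝ) / 2 ^ M' := by
      refine Finset.sum_lt_sum_of_nonempty Finset.univ_nonempty fun U _ => ?_
      rw [lt_div_iff₀ (by positivity), mul_comm]
      exact hc U
    rw [Finset.sum_const, nsmul_eq_mul] at h3
    have h4 : (#(Finset.univ : Finset (Finset (Fin M'))) : ℝ) * ((#B : ℝ) / 2 ^ M') = #B := by
      have : (#(Finset.univ : Finset (Finset (Fin M'))) : ℝ) = 2 ^ M' := by simp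
      rw [this]
      field_simp
    rw [h4] at h3
    linarith
  obtain ⟨U, hU⟩ := hU
  refine ⟨M' * D, fun y => β⁻¹ • wc U (ν ((flat M' D).symm y)), ?_, ?_⟩
  · intro y
    rw [norm_smul, norm_inv, Real.norm_of_nonneg hβ0.le, inv_mul_le_iff₀ hβ0, mul_one]
    refine norm_wc_le U _ fun δ => ?_
    rw [hβ]
    exact hν1 _ _
  · have h1 : #(Finset.univ.filter fun b : Fin M' → Fin D → ℤˣ =>
        e' < ‖nh (fun x δ => (ν x δ).comp T) U b‖) ≤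
        #(Finset.univ.filter fun b : Fin (M' * D) → ℤˣ => 1 / (L₀ * 2 ^ M' + β / e') ≤
          ‖fc T (fun y => β⁻¹ • wc U (ν ((flat M' D).symm y))) b‖) := by
      refine Finset.card_le_card_of_injOn (flat M' D) ?_ (flat M' D).injective.injOn
      intro b hb
      rw [Finset.coe_filter] at hb ⊢
      refine ⟨Finset.mem_univ _, ?_⟩
      rw [fc_flat, norm_smul, norm_inv, Real.norm_of_nonneg hβ0.le]
      calc 1 / (L₀ * 2 ^ M' + β / e') ≤ 1 / (β / e') := by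
            apply one_div_le_one_div_of_le (by positivity)
            have : 0 ≤ L₀ * 2 ^ M' := by positivity
            linarith
        _ = β⁻¹ * e' := by field_simp
        _ ≤ _ := mul_le_mul_of_nonneg_left hb.2.le (by positivity)
    have h2 : (#B : ℝ) ≤ 2 ^ M' * #(Finset.univ.filter fun b : Fin (M' * D) → ℤˣ =>
        1 / (L₀ * 2 ^ M' + β / e') ≤
          ‖fc T (fun y => β⁻¹ • wc U (ν ((flat M' D).symm y))) b‖) := by
      refine hU.trans (mul_le_mul_of_nonneg_left ?_ (by positivity))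
      exact_mod_cast h1
    have h3 : (0:ℝ) ≤ #(Finset.univ.filter fun b : Fin (M' * D) → ℤˣ =>
        1 / (L₀ * 2 ^ M' + β / e') ≤
          ‖fc T (fun y => β⁻¹ • wc U (ν ((flat M' D).symm y))) b‖) := by positivity
    refine hkey.trans ?_
    calc L₀ * (#B : ℝ) ≤ L₀ * (2 ^ M' * #(Finset.univ.filter fun b : Fin (M' * D) → ℤˣ =>
        1 / (L₀ * 2 ^ M' + β / e') ≤
          ‖fc T (fun y => β⁻¹ • wc U (ν ((flat M' D).symm y))) b‖)) :=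
          mul_le_mul_of_nonneg_left h2 (by linarith)
      _ ≤ _ := by
          rw [← mul_assoc]
          refine mul_le_mul_of_nonneg_right ?_ h3
          linarith

end

end Vale.Agent.P111.TW
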