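import Vale.Agent.P111.TW.Exp
import Vale.Agent.P111.SY.Core1

/-!
Walsh systems, block WD: the hypotheses of the core estimate.
-/

set_option linter.unusedSectionVars false

namespace Vale.Agent.P111.TW

open Finset Vale.Agent.P111 Vale.Agent.P111.TK

theorem avg_coord {I α E : Type*} [Fintype I] [DecidableEq I] [Fintype α] [Nonempty α]
    [AddCommGroup E] [Module ℝ E] (k : I) (f : α → E) :
    (avg fun x : I → α => f (x k)) = avg f := by
  have h1 := avg_comp_equiv (Equiv.funSplitAt k α) (fun p : α × ({j // j ≠ k} → α) => f p.1)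
  have h2 : (fun x : I → α => (fun p : α × ({j // j ≠ k} → α) => f p.1)
      ((Equiv.funSplitAt k α) x)) = fun x => f (x k) := by
    funext x
    rfl
  rw [h2] at h1
  have h3 : ∀ a : α, (avg fun _ : ({j // j ≠ k} → α) => f a) = f a := fun a =>
    avg_const (f a)
  rw [h1, avg_prod]
  exact avg_congr h3

section

variable {D M M' : ℕ} {Y : Type*} [NormedAddCommGroup Y] [NormedSpace ℝ Y]

theorem walsh_chi' (J : Fin M → Fin D → ℤˣ) (T : Finset (Fin M)) (g : Fin D → ℤˣ) :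
    walsh T (fun i => chi (J i) g) = sg (chi (JT J T) g) := by
  rw [JT, chi_prod_left, H1.sg_prod, walsh]

theorem Chi_bic (J : Fin M → Fin D → ℤˣ) (T : Finset (Fin M)) (U : Finset (Fin M'))
    (x : Fin M' → Fin D → ℤˣ) :
    Chi (JG J (bic T U)) x = walsh T (fun i => ∏ k ∈ U, chi (J i) (x k)) := by
  have h1 : ∀ k, sg (chi (JG J (bic T U) k) (x k)) =
      if k ∈ U then ∏ i ∈ T, sg (chi (J i) (x k)) else 1 := by
    intro k
    simp only [JG]
    split_ifs with hk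
    · rw [bic_pos hk, JT, chi_prod_left, H1.sg_prod]
    · rw [bic_neg hk, JT, Finset.prod_empty, chi_one_left, sg_one]
  rw [Chi, Finset.prod_congr rfl fun k _ => h1 k, ← Finset.prod_filter, walsh]
  have h2 : (Finset.univ.filter fun k => k ∈ U) = U := by
    ext k
    simp
  rw [h2, Finset.prod_comm]
  refine Finset.prod_congr rfl fun i _ => ?_
  rw [H1.sg_prod]

/-- Resummation. -/
theorem abs_resum_le {Ω : Type*} [Fintype Ω] [Nonempty Ω] {Z : (Fin M → ℤˣ) → (Y →L[ℝ] ℝ)}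
    {β₁ b : ℝ} (hZ : ∀ ε, ‖Z ε‖ ≤ β₁) (s : Ω → Fin M → ℤˣ) (y : Ω → Y) (hy : ∀ x, ‖y x‖ ≤ b)
    (ω : Fin M → ℤˣ) :
    |∑ T, (wc T Z) (avg fun x => walsh T (s x) • y x) * walsh T ω| ≤ β₁ * b := by
  have hβ₁ : 0 ≤ β₁ := (norm_nonneg _).trans (hZ 1)
  have h1 : ∑ T, (wc T Z) (avg fun x => walsh T (s x) • y x) * walsh T ω =
      avg fun x => Z (ω * s x) (y x) := by
    have h2 : ∀ T : Finset (Fin M), (wc T Z) (avg fun x => walsh T (s x) • y x) * walsh T ω =
        avg fun x => (walsh T (ω * s x) • wc T Z) (y x) := by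
      intro T
      rw [clm_avg, ← avg_mul_right]
      refine avg_congr fun x => ?_
      rw [map_smul, smul_eq_mul, _root_.smul_apply, smul_eq_mul, walsh_mul]
      ring
    rw [Finset.sum_congr rfl fun T _ => h2 T, ← avg_sum]
    refine avg_congr fun x => ?_
    rw [← _root_.sum_apply, sum_walsh_smul_wc]
  rw [h1]
  refine abs_avg_le_const fun x => ?_
  rw [← Real.norm_eq_abs]
  exact ((Z _).le_opNorm _).trans (mul_le_mul (hZ _) (hy x) (norm_nonneg _) hβ₁)

/-- The coefficients of the first level in the second variable. -/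
noncomputable def cc (J : Fin M → Fin D → ℤˣ) (Z : (Fin M → ℤˣ) → (Y →L[ℝ] ℝ))
    (η : (Fin D → ℤˣ) → Y) (T : Finset (Fin M)) : ℝ :=
  (wc T Z) (avg fun x : Fin D → ℤˣ => walsh T (fun i => chi (J i) x) • η x)

theorem vhyp {J : Fin M → Fin D → ℤˣ} (hJ : ∀ T : Finset (Fin M), T.Nonempty → JT J T ≠ 1)
    {Z : (Fin M → ℤˣ) → (Y →L[ℝ] ℝ)} {ν : (Fin M' → Fin D → ℤˣ) → (Fin M' → ℤˣ) → Y}
    {η : (Fin D → ℤˣ) → Y} {β₁ β₂ b e' : ℝ} (hη : ∀ x, ‖η x‖ ≤ b)
    (hζη : ∀ i, (wc {i} Z) (avg fun x : Fin D → ℤˣ => sg (chi (J i) x) • η x) = 1)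
    (hZ : ∀ ε, ‖Z ε‖ ≤ β₁) (hν : ∀ x δ, ‖ν x δ‖ ≤ β₂) (he' : 0 ≤ e')
    (hZo : ∀ ε, Z (-ε) = - Z ε) (hνo : ∀ x δ, ν x (-δ) = - ν x δ)
    (hνk : ∀ x k, wc {k} (ν x) = η (x k))
    (hgen : ∀ g : Fin M' → Finset (Fin M), Two g → ‖nh ν (oddU g) (JG J g)‖ ≤ e') :
    SY.VHyp (kap J Z ν) (cc J Z η) (β₁ * b) (β₁ * β₂)
      (β₁ * β₂ + (2 ^ M) ^ M' * (β₁ * e')) where
  c_even := fun T hT => by
    rw [cc, wc_even Z hZo T hT, _root_.zero_apply]
  κ_even := fun T U hU => by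
    rw [kap, nh_even hνo hU, map_zero]
  c_one := fun i => by
    rw [cc, ← hζη i]
    congr 1
    refine avg_congr fun x => ?_
    rw [walsh_singleton]
  κ_one := fun T k => by
    rw [kap, cc]
    congr 1
    rw [nh]
    have h1 : ∀ x : Fin M' → Fin D → ℤˣ, Chi (JG J (bic T {k})) x • wc {k} (ν x) =
        (fun z : Fin D → ℤˣ => walsh T (fun i => chi (J i) z) • η z) (x k) := by
      intro x
      rw [Chi_bic, hνk]
      simp only [Finset.prod_singleton]
    rw [avg_congr h1]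
    exact avg_coord k (fun z : Fin D → ℤˣ => walsh T (fun i => chi (J i) z) • η z)
  c_bd := fun ω => abs_resum_le hZ _ _ hη ω
  κ_bd := fun U ω => by
    have h1 : ∀ T : Finset (Fin M), kap J Z ν T U =
        (wc T Z) (avg fun x : Fin M' → Fin D → ℤˣ =>
          walsh T (fun i => ∏ k ∈ U, chi (J i) (x k)) • wc U (ν x)) := by
      intro T
      rw [kap, nh]
      congr 1
      refine avg_congr fun x => ?_
      rw [Chi_bic]
    simp only [h1]
    exact abs_resum_le hZ (fun (x : Fin M' → Fin D → ℤˣ) i => ∏ k ∈ U, chi (J i) (x k)) _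
      (fun x => norm_wc_le U (ν x) (hν x)) ω
  bd := fun A => by
    have h1 := beta_approx J hZ he' hZo hνo hgen A
    have h2 := abs_beta_le hJ hZ hν A
    have h3 : ∑ T, ∑ U, kap J Z ν T U * walsh U (fun k => ∏ i ∈ T, A i k) =
        beta J Z ν A -
          (beta J Z ν A - ∑ T, ∑ U, kap J Z ν T U * walsh U (fun k => ∏ i ∈ T, A i k)) := by
      ring
    rw [h3]
    exact (abs_sub _ _).trans (add_le_add h2 h1)

end

end Vale.Agent.P111.TW
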