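import Vale.Agent.P111.TW.Step

/-!
Walsh systems: generic tuples of characters.
-/

set_option linter.unusedSectionVars false

namespace Vale.Agent.P111.TW

open Finset Vale.Agent.P111 Vale.Agent.P111.TK

variable {D M M' : ℕ}

theorem agree_of {J₁ J₂ : Fin M → Fin D → ℤˣ} {T : Finset (Fin M)} {i : Fin M} (hi : i ∈ T)
    (h : ∀ k ∈ T, k ≠ i → J₁ k = J₂ k) (hT : JT J₁ T = JT J₂ T) : J₁ i = J₂ i := by
  unfold JT at hT
  rw [← Finset.mul_prod_erase T J₁ hi, ← Finset.mul_prod_erase T J₂ hi] at hT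
  have h1 : ∏ k ∈ T.erase i, J₁ k = ∏ k ∈ T.erase i, J₂ k :=
    Finset.prod_congr rfl fun k hk => h k (Finset.mem_of_mem_erase hk) (Finset.ne_of_mem_erase hk)
  rw [h1] at hT
  exact mul_right_cancel hT

theorem fibre_one (Λ : Finset (Fin D → ℤˣ)) {T : Finset (Fin M)} (hT : T.Nonempty)
    (b : Fin D → ℤˣ) :
    #((Fintype.piFinset fun _ : Fin M => Λ).filter fun J => JT J T = b) * #Λ ≤ #Λ ^ M := by
  classical
  obtain ⟨i, hi⟩ := hT
  have h1 : #Λ ^ M = #(Fintype.piFinset fun _ : Fin M => Λ) := by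
    rw [Fintype.card_piFinset_const]
  rw [h1, ← Finset.card_product]
  refine Finset.card_le_card_of_injOn (fun p => Function.update p.1 i p.2) ?_ ?_
  · rintro ⟨J, a⟩ hp
    simp only [Finset.coe_product, Set.mem_prod, Finset.mem_coe, Finset.mem_filter,
      Fintype.mem_piFinset] at hp ⊢
    intro k
    by_cases hk : k = i
    · subst hk
      rw [Function.update_self]
      exact hp.2
    · rw [Function.update_of_ne hk]
      exact hp.1.1 k
  · rintro ⟨J₁, a₁⟩ h₁ ⟨J₂, a₂⟩ h₂ h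
    simp only [Finset.coe_product, Set.mem_prod, Finset.mem_coe, Finset.mem_filter] at h₁ h₂
    simp only at h
    have ha : a₁ = a₂ := by
      have := congrFun h i
      rwa [Function.update_self, Function.update_self] at this
    have hk : ∀ k, k ≠ i → J₁ k = J₂ k := by
      intro k hk
      have := congrFun h k
      rwa [Function.update_of_ne hk, Function.update_of_ne hk] at this
    have hi' : J₁ i = J₂ i := agree_of hi (fun k _ hki => hk k hki) (h₁.1.2.trans h₂.1.2.symm)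
    have hJ : J₁ = J₂ := by
      funext k
      by_cases hki : k = i
      · rw [hki, hi']
      · exact hk k hki
    rw [ha, hJ]

theorem fibre_two (Λ : Finset (Fin D → ℤˣ)) {S S' : Finset (Fin M)} {i j : Fin M} (hi : i ∈ S)
    (hi' : i ∉ S') (hj : j ∈ S') (b b' : Fin D → ℤˣ) :
    #((Fintype.piFinset fun _ : Fin M => Λ).filter fun J => JT J S = b ∧ JT J S' = b') *
      (#Λ * #Λ) ≤ #Λ ^ M := by
  classical
  have hij : i ≠ j := by
    rintro rfl
    exact hi' hj
  have h1 : #Λ ^ M = #(Fintype.piFinset fun _ : Fin M => Λ) := by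
    rw [Fintype.card_piFinset_const]
  rw [h1, ← Finset.card_product, ← Finset.card_product]
  refine Finset.card_le_card_of_injOn
    (fun p => Function.update (Function.update p.1 i p.2.1) j p.2.2) ?_ ?_
  · rintro ⟨J, a, a'⟩ hp
    simp only [Finset.coe_product, Set.mem_prod, Finset.mem_coe, Finset.mem_filter,
      Fintype.mem_piFinset] at hp ⊢
    intro k
    by_cases hkj : k = j
    · subst hkj
      rw [Function.update_self]
      exact hp.2.2
    · rw [Function.update_of_ne hkj]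
      by_cases hk : k = i
      · subst hk
        rw [Function.update_self]
        exact hp.2.1
      · rw [Function.update_of_ne hk]
        exact hp.1.1 k
  · rintro ⟨J₁, a₁, a₁'⟩ h₁ ⟨J₂, a₂, a₂'⟩ h₂ h
    simp only [Finset.coe_product, Set.mem_prod, Finset.mem_coe, Finset.mem_filter] at h₁ h₂
    simp only at h
    have ha' : a₁' = a₂' := by
      have := congrFun h j
      rwa [Function.update_self, Function.update_self] at this
    have ha : a₁ = a₂ := by
      have := congrFun h i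
      rwa [Function.update_of_ne hij, Function.update_of_ne hij, Function.update_self,
        Function.update_self] at this
    have hk : ∀ k, k ≠ i → k ≠ j → J₁ k = J₂ k := by
      intro k hki hkj
      have := congrFun h k
      rwa [Function.update_of_ne hkj, Function.update_of_ne hkj, Function.update_of_ne hki,
        Function.update_of_ne hki] at this
    have hj' : J₁ j = J₂ j := agree_of hj (fun k hkS hkj => hk k (by
      rintro rfl
      exact hi' hkS) hkj) (h₁.1.2.2.trans h₂.1.2.2.symm)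
    have hi'' : J₁ i = J₂ i := agree_of hi (fun k _ hki => by
      by_cases hkj : k = j
      · rw [hkj, hj']
      · exact hk k hki hkj) (h₁.1.2.1.trans h₂.1.2.1.symm)
    have hJ : J₁ = J₂ := by
      funext k
      by_cases hki : k = i
      · rw [hki, hi'']
      · by_cases hkj : k = j
        · rw [hkj, hj']
        · exact hk k hki hkj
    rw [ha, ha', hJ]

theorem Two.minor {g : Fin M' → Finset (Fin M)} (hg : Two g) :
    ∃ k k' i j, i ∈ g k ∧ i ∉ g k' ∧ j ∈ g k' := by
  obtain ⟨k, k', hk, hk', hne⟩ := hg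
  by_cases h : g k ⊆ g k'
  · have h2 : ¬ g k' ⊆ g k := fun h' => hne (Finset.Subset.antisymm h h')
    obtain ⟨i, hi, hi'⟩ := Finset.not_subset.mp h2
    obtain ⟨j, hj⟩ := hk
    exact ⟨k', k, i, j, hi, hi', hj⟩
  · obtain ⟨i, hi, hi'⟩ := Finset.not_subset.mp h
    obtain ⟨j, hj⟩ := hk'
    exact ⟨k, k', i, j, hi, hi', hj⟩

theorem fibre_g (Λ : Finset (Fin D → ℤˣ)) {g : Fin M' → Finset (Fin M)} (hg : Two g)
    (b : Fin M' → Fin D → ℤˣ) :
    #((Fintype.piFinset fun _ : Fin M => Λ).filter fun J => JG J g = b) * (#Λ * #Λ) ≤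
      #Λ ^ M := by
  obtain ⟨k, k', i, j, hi, hi', hj⟩ := hg.minor
  refine le_trans (Nat.mul_le_mul_right _ (Finset.card_le_card ?_))
    (fibre_two Λ hi hi' hj (b k) (b k'))
  intro J hJ
  rw [Finset.mem_filter] at hJ ⊢
  exact ⟨hJ.1, congrFun hJ.2 k, congrFun hJ.2 k'⟩

/-- Generic tuples exist. -/
theorem generic (M M' : ℕ) : ∃ L : ℝ, 1 ≤ L ∧ Generic M M' L := by
  classical
  refine ⟨2 * 2 ^ M + 2 * (2 ^ M) ^ M', ?_, ?_⟩
  · have h1 : (1:ℝ) ≤ 2 ^ M := one_le_pow₀ (by norm_num)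
    have h2 : (0:ℝ) ≤ (2 ^ M) ^ M' := by positivity
    linarith
  intro D Λ B hL hB
  by_contra hcon
  push Not at hcon
  set N := #Λ with hN
  set Ω : Finset (Fin M → Fin D → ℤˣ) := Fintype.piFinset fun _ : Fin M => Λ with hΩ
  have hΩc : #Ω = N ^ M := by rw [hΩ, Fintype.card_piFinset_const]
  have h2M : (1:ℝ) ≤ 2 ^ M := one_le_pow₀ (by norm_num)
  have h2M' : (0:ℝ) ≤ (2 ^ M) ^ M' := by positivity
  have hN0 : (0:ℝ) < N := by linarith
  have hN0' : 0 < N := by exact_mod_cast hN0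
  have hsub : Ω ⊆ (((Finset.univ : Finset (Finset (Fin M))).filter fun T => T.Nonempty).biUnion
      fun T => Ω.filter fun J => JT J T = 1) ∪
      (((Finset.univ : Finset (Fin M' → Finset (Fin M))).filter fun g => Two g).biUnion fun g =>
        B.biUnion fun b => Ω.filter fun J => JG J g = b) := by
    intro J hJ
    rw [Finset.mem_union]
    by_cases h1 : ∀ T : Finset (Fin M), T.Nonempty → JT J T ≠ 1
    · right
      obtain ⟨g, hg, hgB⟩ := hcon J (Fintype.mem_piFinset.mp hJ) h1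
      rw [Finset.mem_biUnion]
      refine ⟨g, Finset.mem_filter.mpr ⟨Finset.mem_univ _, hg⟩, ?_⟩
      rw [Finset.mem_biUnion]
      exact ⟨JG J g, hgB, Finset.mem_filter.mpr ⟨hJ, rfl⟩⟩
    · left
      push Not at h1
      obtain ⟨T, hT, hT1⟩ := h1
      rw [Finset.mem_biUnion]
      exact ⟨T, Finset.mem_filter.mpr ⟨Finset.mem_univ _, hT⟩, Finset.mem_filter.mpr ⟨hJ, hT1⟩⟩
  have hc := (Finset.card_le_card hsub).trans (Finset.card_union_le _ _)
  have hc1 : #(((Finset.univ : Finset (Finset (Fin M))).filter fun T => T.Nonempty).biUnion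
      fun T => Ω.filter fun J => JT J T = 1) * (N * N) ≤ 2 ^ M * (N ^ M * N) := by
    calc _ ≤ (∑ T ∈ (Finset.univ : Finset (Finset (Fin M))).filter fun T => T.Nonempty,
          #(Ω.filter fun J => JT J T = 1)) * (N * N) :=
          Nat.mul_le_mul_right _ Finset.card_biUnion_le
      _ = ∑ T ∈ (Finset.univ : Finset (Finset (Fin M))).filter fun T => T.Nonempty,
          #(Ω.filter fun J => JT J T = 1) * N * N := by
          rw [Finset.sum_mul]
          exact Finset.sum_congr rfl fun T _ => by ring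
      _ ≤ ∑ _T ∈ (Finset.univ : Finset (Finset (Fin M))).filter fun T => T.Nonempty,
          N ^ M * N := by
          refine Finset.sum_le_sum fun T hT => ?_
          exact Nat.mul_le_mul_right _ (fibre_one Λ (Finset.mem_filter.mp hT).2 1)
      _ ≤ ∑ _T : Finset (Fin M), N ^ M * N :=
          Finset.sum_le_sum_of_subset (Finset.filter_subset _ _)
      _ = 2 ^ M * (N ^ M * N) := by
          rw [Finset.sum_const, Finset.card_univ, Fintype.card_finset, Fintype.card_fin,
            smul_eq_mul]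
  have hc2 : #(((Finset.univ : Finset (Fin M' → Finset (Fin M))).filter
      fun g => Two g).biUnion fun g => B.biUnion fun b => Ω.filter fun J => JG J g = b) *
      (N * N) ≤ (2 ^ M) ^ M' * (#B * N ^ M) := by
    calc _ ≤ (∑ g ∈ (Finset.univ : Finset (Fin M' → Finset (Fin M))).filter fun g => Two g,
          ∑ b ∈ B, #(Ω.filter fun J => JG J g = b)) * (N * N) := by
          refine Nat.mul_le_mul_right _ (Finset.card_biUnion_le.trans ?_)
          exact Finset.sum_le_sum fun g _ => Finset.card_biUnion_le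
      _ = ∑ g ∈ (Finset.univ : Finset (Fin M' → Finset (Fin M))).filter fun g => Two g,
          ∑ b ∈ B, #(Ω.filter fun J => JG J g = b) * (N * N) := by
          rw [Finset.sum_mul]
          exact Finset.sum_congr rfl fun g _ => by rw [Finset.sum_mul]
      _ ≤ ∑ _g ∈ (Finset.univ : Finset (Fin M' → Finset (Fin M))).filter fun g => Two g,
          ∑ _b ∈ B, N ^ M := by
          refine Finset.sum_le_sum fun g hg => Finset.sum_le_sum fun b _ => ?_
          exact fibre_g Λ (Finset.mem_filter.mp hg).2 b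
      _ ≤ ∑ _g : Fin M' → Finset (Fin M), ∑ _b ∈ B, N ^ M :=
          Finset.sum_le_sum_of_subset (Finset.filter_subset _ _)
      _ = (2 ^ M) ^ M' * (#B * N ^ M) := by
          rw [Finset.sum_const, Finset.sum_const, Finset.card_univ, Fintype.card_fun,
            Fintype.card_finset, Fintype.card_fin, Fintype.card_fin, smul_eq_mul, smul_eq_mul]
  have hc3 : N ^ M * (N * N) ≤ 2 ^ M * (N ^ M * N) + (2 ^ M) ^ M' * (#B * N ^ M) := by
    rw [← hΩc]
    calc #Ω * (N * N) ≤ _ := Nat.mul_le_mul_right _ hc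
      _ ≤ _ := by
          rw [add_mul, hΩc]
          exact Nat.add_le_add hc1 hc2
  have hc4 : (N:ℝ) ^ M * (N * N) ≤
      2 ^ M * ((N:ℝ) ^ M * N) + (2 ^ M) ^ M' * (#B * (N:ℝ) ^ M) := by exact_mod_cast hc3
  have hNM : (0:ℝ) < (N:ℝ) ^ M := by positivity
  have hc5 : (N:ℝ) * N ≤ 2 ^ M * N + (2 ^ M) ^ M' * #B := by
    have : (N:ℝ) ^ M * (N * N) ≤ (N:ℝ) ^ M * (2 ^ M * N + (2 ^ M) ^ M' * #B) := by
      linarith
    exact le_of_mul_le_mul_left this hNM
  have hc6 : 2 ^ M * (N:ℝ) ≤ N * N / 2 := by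
    have : 2 * 2 ^ M * (N:ℝ) ≤ N * N := by
      refine mul_le_mul_of_nonneg_right ?_ hN0.le
      linarith
    linarith
  have hB0 : (0:ℝ) ≤ #B := by positivity
  have hc7 : (2 ^ M) ^ M' * (#B : ℝ) < N * N / 2 := by
    have h1 : (2 * 2 ^ M + 2 * (2 ^ M) ^ M') * (#B : ℝ) < N * N := by rw [← sq]; exact hB
    have h2 : 0 ≤ 2 * 2 ^ M * (#B : ℝ) := by positivity
    linarith
  linarith

/-- The step of the iteration. -/
theorem step (q r C ρ : ℝ) (hq : 2 ≤ q) (hr : 2 ≤ r) (hC : 1 ≤ C) (hρ : 1 ≤ ρ) :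
    ∃ L : ℝ, 1 ≤ L ∧ ∀ (X : Type*) [NormedAddCommGroup X] [NormedSpace ℝ X]
      (T : X →L[ℝ] X), CotypeWith q C X → CotypeWith r C (X →L[ℝ] ℝ) → ‖T‖ ≤ C →
      ∀ (D : ℕ) (θ : (Fin D → ℤˣ) → (X →L[ℝ] ℝ)), (∀ x, ‖θ x‖ ≤ 1) →
      ∀ Λ : Finset (Fin D → ℤˣ), (∀ b ∈ Λ, 1 / ρ ≤ ‖fc T θ b‖) → L ≤ #Λ →
      ∃ (D' : ℕ) (θ' : (Fin D' → ℤˣ) → (X →L[ℝ] ℝ)), (∀ x, ‖θ' x‖ ≤ 1) ∧
        (#Λ : ℝ) ^ 2 ≤ L * #(Finset.univ.filter fun b => 1 / L ≤ ‖fc T θ' b‖) :=
  step_of generic q r C ρ hq hr hC hρ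

end Vale.Agent.P111.TW
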