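import Vale.Agent.P111.TW.Step

/-!
Walsh systems: assembly with the terms of small rank removed.
-/

set_option linter.unusedSectionVars false

namespace Vale.Agent.P111.TW

open Finset Vale.Agent.P111 Vale.Agent.P111.TK

section

variable {D M M' : ℕ} {Y : Type*} [NormedAddCommGroup Y] [NormedSpace ℝ Y]

/-- The properties of a multiplier which removes the terms of rank `2, …, R`. -/
structure Killer (M M' R : ℕ) (K : ℝ) (rk : (Fin M' → Finset (Fin M)) → ℕ)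
    (w : (Fin M → Fin M' → ℤˣ) → ℝ) : Prop where
  norm : ∑ S, |w S| ≤ K
  bic_one : ∀ (T : Finset (Fin M)) (U : Finset (Fin M')), T.Nonempty → U.Nonempty →
    rk (bic T U) = 1
  bic_of : ∀ g, rk g ≤ 1 → ∃ T U, g = bic T U
  one : ∀ g, rk g = 1 → ∑ S, w S * ∏ k, ∏ i ∈ g k, sg (S i k) = 1
  zero : ∀ g, 2 ≤ rk g → rk g ≤ R → ∑ S, w S * ∏ k, ∏ i ∈ g k, sg (S i k) = 0

/-- The modified pairing. -/
noncomputable def betaR (w : (Fin M → Fin M' → ℤˣ) → ℝ) (J : Fin M → Fin D → ℤˣ)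
    (Z : (Fin M → ℤˣ) → (Y →L[ℝ] ℝ)) (ν : (Fin M' → Fin D → ℤˣ) → (Fin M' → ℤˣ) → Y)
    (A : Fin M → Fin M' → ℤˣ) : ℝ :=
  ∑ S, w S * beta J Z ν (fun i k => A i k * S i k)

theorem abs_betaR_le {w : (Fin M → Fin M' → ℤˣ) → ℝ} {K : ℝ} (hw : ∑ S, |w S| ≤ K)
    {J : Fin M → Fin D → ℤˣ} (hJ : ∀ T : Finset (Fin M), T.Nonempty → JT J T ≠ 1)
    {Z : (Fin M → ℤˣ) → (Y →L[ℝ] ℝ)} {ν : (Fin M' → Fin D → ℤˣ) → (Fin M' → ℤˣ) → Y}
    {β₁ β₂ : ℝ} (hZ : ∀ ε, ‖Z ε‖ ≤ β₁) (hν : ∀ x δ, ‖ν x δ‖ ≤ β₂) (A : Fin M → Fin M' → ℤˣ) :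
    |betaR w J Z ν A| ≤ K * (β₁ * β₂) := by
  have hβ₁ : 0 ≤ β₁ := (norm_nonneg _).trans (hZ 1)
  have hβ₂ : 0 ≤ β₂ := (norm_nonneg _).trans (hν 1 1)
  unfold betaR
  refine (Finset.abs_sum_le_sum_abs _ _).trans ?_
  have h1 : ∀ S ∈ (Finset.univ : Finset (Fin M → Fin M' → ℤˣ)),
      |w S * beta J Z ν (fun i k => A i k * S i k)| ≤ |w S| * (β₁ * β₂) := by
    intro S _
    rw [abs_mul]
    exact mul_le_mul_of_nonneg_left (abs_beta_le hJ hZ hν _) (abs_nonneg _)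
  refine (Finset.sum_le_sum h1).trans ?_
  rw [← Finset.sum_mul]
  exact mul_le_mul_of_nonneg_right hw (by positivity)

theorem betaR_expand (w : (Fin M → Fin M' → ℤˣ) → ℝ) (J : Fin M → Fin D → ℤˣ)
    (Z : (Fin M → ℤˣ) → (Y →L[ℝ] ℝ)) (ν : (Fin M' → Fin D → ℤˣ) → (Fin M' → ℤˣ) → Y)
    (A : Fin M → Fin M' → ℤˣ) :
    betaR w J Z ν A = ∑ g : Fin M' → Finset (Fin M),
      (∑ S, w S * ∏ k, ∏ i ∈ g k, sg (S i k)) *
        ((∏ k, ∏ i ∈ g k, sg (A i k)) * (wc (oddT g) Z) (nh ν (oddU g) (JG J g))) := by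
  unfold betaR
  simp only [beta_expand, Finset.mul_sum, Finset.sum_mul]
  rw [Finset.sum_comm]
  refine Finset.sum_congr rfl fun g _ => Finset.sum_congr rfl fun S _ => ?_
  have h1 : ∏ k, ∏ i ∈ g k, sg (A i k * S i k) =
      (∏ k, ∏ i ∈ g k, sg (A i k)) * ∏ k, ∏ i ∈ g k, sg (S i k) := by
    rw [← Finset.prod_mul_distrib]
    refine Finset.prod_congr rfl fun k _ => ?_
    rw [← Finset.prod_mul_distrib]
    exact Finset.prod_congr rfl fun i _ => sg_mul _ _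
  rw [h1]
  ring

theorem abs_hat_le (w : (Fin M → Fin M' → ℤˣ) → ℝ) (g : Fin M' → Finset (Fin M)) :
    |∑ S, w S * ∏ k, ∏ i ∈ g k, sg (S i k)| ≤ ∑ S, |w S| := by
  refine (Finset.abs_sum_le_sum_abs _ _).trans (Finset.sum_le_sum fun S _ => ?_)
  have h1 : |∏ k, ∏ i ∈ g k, sg (S i k)| = 1 := by
    rw [Finset.abs_prod]
    refine Finset.prod_eq_one fun k _ => ?_
    rw [Finset.abs_prod]
    exact Finset.prod_eq_one fun i _ => abs_sg _
  rw [abs_mul, h1, mul_one]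

/-- Only the bicliques matter. -/
theorem betaR_approx {R : ℕ} {K : ℝ} {rk : (Fin M' → Finset (Fin M)) → ℕ}
    {w : (Fin M → Fin M' → ℤˣ) → ℝ} (hw : Killer M M' R K rk w) (J : Fin M → Fin D → ℤˣ)
    {Z : (Fin M → ℤˣ) → (Y →L[ℝ] ℝ)} {ν : (Fin M' → Fin D → ℤˣ) → (Fin M' → ℤˣ) → Y}
    {β₁ e' : ℝ} (hZ : ∀ ε, ‖Z ε‖ ≤ β₁) (he' : 0 ≤ e') (hZo : ∀ ε, Z (-ε) = - Z ε)
    (hνo : ∀ x δ, ν x (-δ) = - ν x δ)
    (hJ : ∀ g : Fin M' → Finset (Fin M), R < rk g → ‖nh ν (oddU g) (JG J g)‖ ≤ e')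
    (A : Fin M → Fin M' → ℤˣ) :
    |betaR w J Z ν A - ∑ T, ∑ U, kap J Z ν T U * walsh U (fun k => ∏ i ∈ T, A i k)| ≤
      (2 ^ M) ^ M' * (K * (β₁ * e')) := by
  classical
  have hβ₁ : 0 ≤ β₁ := (norm_nonneg _).trans (hZ 1)
  have hK0 : 0 ≤ K := (Finset.sum_nonneg fun S _ => abs_nonneg (w S)).trans hw.norm
  set a : (Fin M' → Finset (Fin M)) → ℝ := fun g =>
    (∑ S, w S * ∏ k, ∏ i ∈ g k, sg (S i k)) *
      ((∏ k, ∏ i ∈ g k, sg (A i k)) * (wc (oddT g) Z) (nh ν (oddU g) (JG J g))) with ha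
  set P : Finset (Finset (Fin M) × Finset (Fin M')) :=
    Finset.univ.filter fun p => Odd #p.1 ∧ Odd #p.2 with hP
  have h1 : ∑ T, ∑ U, kap J Z ν T U * walsh U (fun k => ∏ i ∈ T, A i k) =
      ∑ p ∈ P, a (bic p.1 p.2) := by
    rw [← Finset.sum_product', hP, Finset.sum_filter]
    refine Finset.sum_congr rfl fun p _ => ?_
    obtain ⟨T, U⟩ := p
    simp only
    split_ifs with hp
    · simp only [ha]
      rw [hw.one (bic T U) (hw.bic_one T U (Finset.card_pos.mp hp.1.pos)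
        (Finset.card_pos.mp hp.2.pos)), one_mul]
      rw [oddT_bic, oddU_bic, if_pos hp.1, if_pos hp.2, kap, mul_comm]
      congr 1
      rw [walsh]
      have h2 : ∀ k, ∏ i ∈ bic T U k, sg (A i k) =
          if k ∈ U then sg (∏ i ∈ T, A i k) else 1 := by
        intro k
        simp only [bic]
        split_ifs with hk
        · rw [H1.sg_prod]
        · simp
      rw [Finset.prod_congr rfl fun k _ => h2 k, ← Finset.prod_filter]
      congr 1
      ext k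
      simp
    · rw [kap]
      rw [not_and_or, Nat.not_odd_iff_even, Nat.not_odd_iff_even] at hp
      rcases hp with hp | hp
      · rw [wc_even Z hZo T hp, _root_.zero_apply, zero_mul]
      · rw [nh_even hνo hp, map_zero, zero_mul]
  have h2 : ∑ p ∈ P, a (bic p.1 p.2) = ∑ g ∈ P.image (fun p => bic p.1 p.2), a g := by
    rw [Finset.sum_image]
    intro p hp p' hp' h
    refine bic_injOn ?_ ?_ h
    · simp only [hP, Finset.coe_filter, Finset.mem_univ, true_and, Set.mem_ofPred_eq] at hp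
      exact ⟨Finset.card_pos.mp hp.1.pos, Finset.card_pos.mp hp.2.pos⟩
    · simp only [hP, Finset.coe_filter, Finset.mem_univ, true_and, Set.mem_ofPred_eq] at hp'
      exact ⟨Finset.card_pos.mp hp'.1.pos, Finset.card_pos.mp hp'.2.pos⟩
  have h3 : betaR w J Z ν A - ∑ g ∈ P.image (fun p => bic p.1 p.2), a g =
      ∑ g ∈ (P.image (fun p => bic p.1 p.2))ᶜ, a g := by
    rw [betaR_expand, ← Finset.sum_add_sum_compl (P.image (fun p => bic p.1 p.2)) a]
    ring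
  have hsgn : ∀ g : Fin M' → Finset (Fin M), |∏ k, ∏ i ∈ g k, sg (A i k)| = 1 := by
    intro g
    rw [Finset.abs_prod]
    refine Finset.prod_eq_one fun k _ => ?_
    rw [Finset.abs_prod]
    exact Finset.prod_eq_one fun i _ => abs_sg _
  have h4 : ∀ g ∈ (P.image (fun p => bic p.1 p.2))ᶜ, |a g| ≤ K * (β₁ * e') := by
    intro g hg
    simp only [ha]
    rw [abs_mul, abs_mul, hsgn, one_mul]
    rcases Nat.lt_or_ge (rk g) 2 with h | h
    · obtain ⟨T, U, rfl⟩ := hw.bic_of g (by omega)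
      have h0 : (wc (oddT (bic T U)) Z) (nh ν (oddU (bic T U)) (JG J (bic T U))) = 0 := by
        rw [Finset.mem_compl, Finset.mem_image] at hg
        push Not at hg
        have h5 : ¬ (Odd #T ∧ Odd #U) := by
          intro h6
          exact hg (T, U) (by simp [hP, h6]) rfl
        rw [not_and_or] at h5
        rcases h5 with h5 | h5
        · have : oddU (bic T U) = ∅ := by rw [oddU_bic, if_neg h5]
          rw [this, nh_even hνo (by simp), map_zero]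
        · have : oddT (bic T U) = ∅ := by rw [oddT_bic, if_neg h5]
          rw [this, wc_even Z hZo ∅ (by simp), _root_.zero_apply]
      rw [h0, abs_zero, mul_zero]
      positivity
    · rcases Nat.lt_or_ge R (rk g) with hR | hR
      · refine mul_le_mul ((abs_hat_le w g).trans hw.norm) ?_ (abs_nonneg _) hK0
        rw [← Real.norm_eq_abs]
        exact ((wc (oddT g) Z).le_opNorm _).trans
          (mul_le_mul (norm_wc_le _ _ hZ) (hJ g hR) (norm_nonneg _) hβ₁)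
      · rw [hw.zero g h hR, abs_zero, zero_mul]
        positivity
  rw [h1, h2, h3]
  refine (Finset.abs_sum_le_sum_abs _ _).trans ?_
  refine (Finset.sum_le_sum h4).trans ?_
  rw [Finset.sum_const, nsmul_eq_mul]
  refine mul_le_mul_of_nonneg_right ?_ (by positivity)
  have h6 : #((P.image (fun p => bic p.1 p.2))ᶜ) ≤ (2 ^ M) ^ M' := by
    refine (Finset.card_le_univ _).trans (le_of_eq ?_)
    rw [Fintype.card_fun, Fintype.card_finset, Fintype.card_fin, Fintype.card_fin]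
  exact_mod_cast h6

theorem vhypR {R : ℕ} {K : ℝ} {rk : (Fin M' → Finset (Fin M)) → ℕ}
    {w : (Fin M → Fin M' → ℤˣ) → ℝ} (hw : Killer M M' R K rk w)
    {J : Fin M → Fin D → ℤˣ} (hJ : ∀ T : Finset (Fin M), T.Nonempty → JT J T ≠ 1)
    {Z : (Fin M → ℤˣ) → (Y →L[ℝ] ℝ)} {ν : (Fin M' → Fin D → ℤˣ) → (Fin M' → ℤˣ) → Y}
    {η : (Fin D → ℤˣ) → Y} {β₁ β₂ b e' : ℝ} (hη : ∀ x, ‖η x‖ ≤ b)
    (hζη : ∀ i, (wc {i} Z) (avg fun x : Fin D → ℤˣ => sg (chi (J i) x) • η x) = 1)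
    (hZ : ∀ ε, ‖Z ε‖ ≤ β₁) (hν : ∀ x δ, ‖ν x δ‖ ≤ β₂) (he' : 0 ≤ e')
    (hZo : ∀ ε, Z (-ε) = - Z ε) (hνo : ∀ x δ, ν x (-δ) = - ν x δ)
    (hνk : ∀ x k, wc {k} (ν x) = η (x k))
    (hgen : ∀ g : Fin M' → Finset (Fin M), R < rk g → ‖nh ν (oddU g) (JG J g)‖ ≤ e') :
    SY.VHyp (kap J Z ν) (cc J Z η) (β₁ * b) (β₁ * β₂)
      (K * (β₁ * β₂) + (2 ^ M) ^ M' * (K * (β₁ * e'))) where
  c_even := fun T hT => by
    rw [cc, wc_even Z hZo T hT, _root_.zero_apply]
  κ_even := fun T U hU => by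
    rw [kap, nh_even hνo hU, map_zero]
  c_one := fun i => by
    rw [cc, ← hζη i]
    congr 1
    refine avg_congr fun x => ?_
    rw [walsh_singleton]
  κ_one := fun T k => by
    rw [kap, cc]
    congr 1
    rw [nh]
    have h1 : ∀ x : Fin M' → Fin D → ℤˣ, Chi (JG J (bic T {k})) x • wc {k} (ν x) =
        (fun z : Fin D → ℤˣ => walsh T (fun i => chi (J i) z) • η z) (x k) := by
      intro x
      rw [Chi_bic, hνk]
      simp only [Finset.prod_singleton]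
    rw [avg_congr h1]
    exact avg_coord k (fun z : Fin D → ℤˣ => walsh T (fun i => chi (J i) z) • η z)
  c_bd := fun ω => abs_resum_le hZ _ _ hη ω
  κ_bd := fun U ω => by
    have h1 : ∀ T : Finset (Fin M), kap J Z ν T U =
        (wc T Z) (avg fun x : Fin M' → Fin D → ℤˣ =>
          walsh T (fun i => ∏ k ∈ U, chi (J i) (x k)) • wc U (ν x)) := by
      intro T
      rw [kap, nh]
      congr 1
      refine avg_congr fun x => ?_
      rw [Chi_bic]
    simp only [h1]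
    exact abs_resum_le hZ (fun (x : Fin M' → Fin D → ℤˣ) i => ∏ k ∈ U, chi (J i) (x k)) _
      (fun x => norm_wc_le U (ν x) (hν x)) ω
  bd := fun A => by
    have h1 := betaR_approx hw J hZ he' hZo hνo hgen A
    have h2 := abs_betaR_le hw.norm hJ hZ hν A
    have h3 : ∑ T, ∑ U, kap J Z ν T U * walsh U (fun k => ∏ i ∈ T, A i k) =
        betaR w J Z ν A -
          (betaR w J Z ν A - ∑ T, ∑ U, kap J Z ν T U * walsh U (fun k => ∏ i ∈ T, A i k)) := by
      ring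
    rw [h3]
    exact (abs_sub _ _).trans (add_le_add h2 h1)

end

end Vale.Agent.P111.TW
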