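import Vale.Agent.P111.TV.Cantor

/-!
Infinite dimensional consequences of the finite theorem on Walsh systems.
-/

namespace Vale.Agent.P111.TW

open Finset Vale.Agent.P111

universe v

/-- The finite theorem (statement). -/
def WStat : Prop :=
  ∀ q r C δ : ℝ, 2 ≤ q → 2 ≤ r → 0 < δ → ∃ D₀ : ℕ, ∀ D ≥ D₀,
    ∀ (X : Type v) [NormedAddCommGroup X] [NormedSpace ℝ X]
      (e : Finset (Fin D) → X) (θ : (Fin D → ℤˣ) → (X →L[ℝ] ℝ)) (T : X →L[ℝ] X),
      (∀ S, ‖e S‖ ≤ C) → (∀ x, ‖θ x‖ ≤ C) → ‖T‖ ≤ C →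
      FiniteDimensional ℝ (LinearMap.range (T : X →ₗ[ℝ] X)) →
      (Module.finrank ℝ (LinearMap.range (T : X →ₗ[ℝ] X)) : ℝ) ≤ 2 ^ ((2 - δ) * (D : ℝ)) →
      (∀ S x, θ x (T (e S)) = ∏ i ∈ S, sg (x i)) →
      CotypeWith q C X → CotypeWith r C (X →L[ℝ] ℝ) → False

/-- Functionals dual to a system dominating the Walsh system. -/
theorem exists_theta {X : Type v} [NormedAddCommGroup X] [NormedSpace ℝ X]
    (e : Finset ℕ → X) {c : ℝ} (hc : 0 < c)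
    (hlow : ∀ (s : Finset (Finset ℕ)) (a : Finset ℕ → ℝ) (x : ℕ → ℤˣ),
      c * |∑ S ∈ s, a S * ∏ i ∈ S, sg (x i)| ≤ ‖∑ S ∈ s, a S • e S‖) (x : ℕ → ℤˣ) :
    ∃ θ : X →L[ℝ] ℝ, ‖θ‖ ≤ c⁻¹ ∧ ∀ S, θ (e S) = ∏ i ∈ S, sg (x i) := by
  classical
  let L : (Finset ℕ →₀ ℝ) →ₗ[ℝ] X := Finsupp.linearCombination ℝ e
  let φ : (Finset ℕ →₀ ℝ) →ₗ[ℝ] ℝ :=
    Finsupp.linearCombination ℝ (fun S : Finset ℕ => ∏ i ∈ S, sg (x i))
  have hb : ∀ a, |φ a| ≤ c⁻¹ * ‖L a‖ := by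
    intro a
    have h := hlow a.support a x
    have h1 : L a = ∑ S ∈ a.support, a S • e S := by
      simp [L, Finsupp.linearCombination_apply, Finsupp.sum]
    have h2 : φ a = ∑ S ∈ a.support, a S * ∏ i ∈ S, sg (x i) := by
      simp [φ, Finsupp.linearCombination_apply, Finsupp.sum]
    rw [h1, h2]
    rw [inv_mul_eq_div, le_div_iff₀ hc, mul_comm]
    exact h
  have hker : LinearMap.ker L ≤ LinearMap.ker φ := by
    intro a ha
    have h := hb a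
    rw [LinearMap.mem_ker.1 ha, norm_zero, mul_zero] at h
    exact LinearMap.mem_ker.2 (abs_eq_zero.1 (le_antisymm h (abs_nonneg _)))
  -- factor through the range
  obtain ⟨g, hg⟩ : ∃ g : LinearMap.range L →ₗ[ℝ] ℝ, ∀ a, g ⟨L a, LinearMap.mem_range_self L a⟩ = φ a := by
    refine ⟨(LinearMap.ker L).liftQ φ hker ∘ₗ L.quotKerEquivRange.symm.toLinearMap, fun a => ?_⟩
    have h1 : L.quotKerEquivRange.symm ⟨L a, LinearMap.mem_range_self L a⟩ =
        (LinearMap.ker L).mkQ a := by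
      rw [LinearEquiv.symm_apply_eq]
      rfl
    simp only [LinearMap.comp_apply, LinearEquiv.coe_coe]
    rw [h1]
    simp
  have hgb : ∀ y : LinearMap.range L, ‖g y‖ ≤ c⁻¹ * ‖y‖ := by
    rintro ⟨y, a, rfl⟩
    rw [hg, Real.norm_eq_abs]
    exact hb a
  obtain ⟨θ, h1, h2⟩ := exists_extension_norm_eq (LinearMap.range L) (g.mkContinuous c⁻¹ hgb)
  refine ⟨θ, ?_, fun S => ?_⟩
  · rw [h2]
    exact LinearMap.mkContinuous_norm_le _ (inv_nonneg.2 hc.le) _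
  · have h3 := h1 ⟨L (Finsupp.single S 1), LinearMap.mem_range_self L _⟩
    have h4 : L (Finsupp.single S 1) = e S := by simp [L]
    have h5 : φ (Finsupp.single S 1) = ∏ i ∈ S, sg (x i) := by simp [φ]
    rw [← h5, ← hg, ← h4]
    exact h3

/-- The infinite dimensional form. -/
theorem inf_of_fin (W : WStat.{v}) (q r : ℝ) (X : Type v) [NormedAddCommGroup X]
    [NormedSpace ℝ X] (e : Finset ℕ → X) (B c δ : ℝ) (hc : 0 < c) (hδ : 0 < δ)
    (he : ∀ S, ‖e S‖ ≤ B)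
    (hlow : ∀ (s : Finset (Finset ℕ)) (a : Finset ℕ → ℝ) (x : ℕ → ℤˣ),
      c * |∑ S ∈ s, a S * ∏ i ∈ S, sg (x i)| ≤ ‖∑ S ∈ s, a S • e S‖)
    (hT : ∀ D₀ : ℕ, ∃ D ≥ D₀, ∃ T : X →L[ℝ] X, ‖T‖ ≤ B ∧
      (∀ S ⊆ Finset.range D, T (e S) = e S) ∧
      FiniteDimensional ℝ (LinearMap.range (T : X →ₗ[ℝ] X)) ∧
      (Module.finrank ℝ (LinearMap.range (T : X →ₗ[ℝ] X)) : ℝ) ≤ 2 ^ ((2 - δ) * (D : ℝ))) :
    ¬ (HasCotype q X ∧ HasCotype r (X →L[ℝ] ℝ)) := by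
  rintro ⟨⟨hq, C₁, h1⟩, ⟨hr, C₂, h2⟩⟩
  set C : ℝ := max (max C₁ C₂) (max B c⁻¹) with hC
  have hC1 : C₁ ≤ C := (le_max_left _ _).trans (le_max_left _ _)
  have hC2 : C₂ ≤ C := (le_max_right _ _).trans (le_max_left _ _)
  have hC3 : B ≤ C := (le_max_left _ _).trans (le_max_right _ _)
  have hC4 : c⁻¹ ≤ C := (le_max_right _ _).trans (le_max_right _ _)
  have h1' : CotypeWith q C X := fun n y => (h1 n y).trans
    (mul_le_mul_of_nonneg_right hC1 (Real.rpow_nonneg (avg_nonneg fun _ => by positivity) _))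
  have h2' : CotypeWith r C (X →L[ℝ] ℝ) := fun n y => (h2 n y).trans
    (mul_le_mul_of_nonneg_right hC2 (Real.rpow_nonneg (avg_nonneg fun _ => by positivity) _))
  obtain ⟨D₀, hD₀⟩ := W q r C δ hq hr hδ
  obtain ⟨D, hD, T, hT1, hT2, hT3, hT4⟩ := hT D₀
  choose θ hθ1 hθ2 using exists_theta e hc hlow
  refine hD₀ D hD X (fun S => e (S.map Fin.valEmbedding)) (fun x => θ (TK.ext x)) T
    (fun S => (he _).trans hC3) (fun x => (hθ1 _).trans hC4) (hT1.trans hC3) hT3 hT4 ?_ h1' h2'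
  intro S x
  rw [hT2, hθ2, Finset.prod_map]
  · refine Finset.prod_congr rfl fun i _ => ?_
    rw [show (Fin.valEmbedding i : ℕ) = (i : ℕ) from rfl, TK.ext_val]
  · intro i hi
    obtain ⟨j, _, rfl⟩ := Finset.mem_map.1 hi
    exact Finset.mem_range.2 j.2

/-- Spaces of functions on the Cantor group on which the conditional expectations are bounded. -/
theorem cantor_of_fin (W : WStat.{v}) (q r : ℝ) (E : Type v) [NormedAddCommGroup E]
    [NormedSpace ℝ E] (e : E →L[ℝ] C(ℕ → ℤˣ, ℝ)) (he : Function.Injective e)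
    (w : Finset ℕ → E) (hw : ∀ S x, e (w S) x = ∏ i ∈ S, sg (x i)) (B : ℝ)
    (hB : ∀ S, ‖w S‖ ≤ B)
    (hP : ∀ D₀ : ℕ, ∃ D ≥ D₀, ∃ P : E →L[ℝ] E, ‖P‖ ≤ B ∧
      (∀ f, ∀ x y : ℕ → ℤˣ, (∀ i < D, x i = y i) → e (P f) x = e (P f) y) ∧
      ∀ f, (∀ x y : ℕ → ℤˣ, (∀ i < D, x i = y i) → e f x = e f y) → P f = f) :
    ¬ (HasCotype q E ∧ HasCotype r (E →L[ℝ] ℝ)) := by
  refine inf_of_fin W q r E w B (‖e‖ + 1)⁻¹ 1 (by positivity) one_pos hB ?_ ?_
  · intro s a x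
    have h1 : ∑ S ∈ s, a S * ∏ i ∈ S, sg (x i) = e (∑ S ∈ s, a S • w S) x := by
      rw [map_sum, ContinuousMap.coe_sum, Finset.sum_apply]
      refine Finset.sum_congr rfl fun S _ => ?_
      rw [map_smul, ContinuousMap.smul_apply, hw, smul_eq_mul]
    rw [h1, inv_mul_eq_div, div_le_iff₀ (by positivity)]
    calc |e (∑ S ∈ s, a S • w S) x| ≤ ‖e (∑ S ∈ s, a S • w S)‖ := by
          rw [← Real.norm_eq_abs]
          exact ContinuousMap.norm_coe_le_norm _ x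
      _ ≤ ‖e‖ * ‖∑ S ∈ s, a S • w S‖ := e.le_opNorm _
      _ ≤ ‖∑ S ∈ s, a S • w S‖ * (‖e‖ + 1) := by
          nlinarith [norm_nonneg (∑ S ∈ s, a S • w S)]
  · intro D₀
    obtain ⟨D, hD, P, h1, h2, h3⟩ := hP D₀
    refine ⟨D, hD, P, h1, fun S hS => h3 _ ?_, ?_⟩
    · intro x y hxy
      rw [hw, hw]
      refine Finset.prod_congr rfl fun i hi => ?_
      rw [hxy i (Finset.mem_range.1 (hS hi))]
    · -- the range is contained in `ED`
      let ev : LinearMap.range (P : E →ₗ[ℝ] E) →ₗ[ℝ] ((Fin D → ℤˣ) → ℝ) :=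
        (TK.evalD e D) ∘ₗ (Submodule.inclusion (by
          rintro _ ⟨f, rfl⟩
          exact h2 f : LinearMap.range (P : E →ₗ[ℝ] E) ≤ TK.ED e D))
      have hev : Function.Injective ev := by
        intro a b hab
        have := TK.evalD_inj e he D hab
        exact Submodule.inclusion_injective _ this
      have hfd : FiniteDimensional ℝ (LinearMap.range (P : E →ₗ[ℝ] E)) :=
        FiniteDimensional.of_injective ev hev
      refine ⟨hfd, ?_⟩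
      have h4 := LinearMap.finrank_le_finrank_of_injective hev
      have h5 : Module.finrank ℝ ((Fin D → ℤˣ) → ℝ) = 2 ^ D := by
        rw [Module.finrank_fintype_fun_eq_card]
        simp
      rw [h5] at h4
      have h6 : ((2:ℝ) ^ ((2 - 1) * (D:ℝ))) = (2:ℝ) ^ D := by
        rw [show ((2:ℝ) - 1) * (D:ℝ) = (D:ℝ) by ring, Real.rpow_natCast]
      rw [h6]
      exact_mod_cast h4

end Vale.Agent.P111.TW
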