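import Vale.Agent.P111.TK.H

/-!
Walsh systems, block WC: expansion of the pairing `β(A)`.
-/

set_option linter.unusedSectionVars false

namespace Vale.Agent.P111.TW

open Finset Vale.Agent.P111 Vale.Agent.P111.TK

section Comb

variable {M M' : ℕ}

/-- The rows of odd degree. -/
def oddT (g : Fin M' → Finset (Fin M)) : Finset (Fin M) :=
  Finset.univ.filter fun i => Odd #(Finset.univ.filter fun k => i ∈ g k)

/-- The columns of odd degree. -/
def oddU (g : Fin M' → Finset (Fin M)) : Finset (Fin M') :=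
  Finset.univ.filter fun k => Odd #(g k)

/-- There are two distinct nonempty columns. -/
def Two (g : Fin M' → Finset (Fin M)) : Prop :=
  ∃ k k', (g k).Nonempty ∧ (g k').Nonempty ∧ g k ≠ g k'

/-- The biclique `T × U`. -/
def bic (T : Finset (Fin M)) (U : Finset (Fin M')) : Fin M' → Finset (Fin M) :=
  fun k => if k ∈ U then T else ∅

theorem sg_pow (u : ℤˣ) (n : ℕ) : sg u ^ n = if Odd n then sg u else 1 := by
  split_ifs with h
  · obtain ⟨m, rfl⟩ := h
    rw [pow_succ, pow_mul, sq, sg_mul_self, one_pow, one_mul]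
  · rw [Nat.not_odd_iff_even] at h
    obtain ⟨m, rfl⟩ := h
    rw [← two_mul, pow_mul, sq, sg_mul_self, one_pow]

theorem prod_rows (g : Fin M' → Finset (Fin M)) (ε : Fin M → ℤˣ) :
    ∏ k, ∏ i ∈ g k, sg (ε i) = walsh (oddT g) ε := by
  have h1 : ∀ k, ∏ i ∈ g k, sg (ε i) = ∏ i, if i ∈ g k then sg (ε i) else 1 := by
    intro k
    rw [← Finset.prod_filter]
    congr 1
    ext i
    simp
  rw [Finset.prod_congr rfl fun k _ => h1 k, Finset.prod_comm, walsh, oddT, Finset.prod_filter]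
  refine Finset.prod_congr rfl fun i _ => ?_
  rw [← Finset.prod_filter, Finset.prod_const, sg_pow]

theorem prod_cols (g : Fin M' → Finset (Fin M)) (δ : Fin M' → ℤˣ) :
    ∏ k, ∏ _i ∈ g k, sg (δ k) = walsh (oddU g) δ := by
  rw [walsh, oddU, Finset.prod_filter]
  refine Finset.prod_congr rfl fun k _ => ?_
  rw [Finset.prod_const, sg_pow]

theorem bic_pos {T : Finset (Fin M)} {U : Finset (Fin M')} {k : Fin M'} (hk : k ∈ U) :
    bic T U k = T := if_pos hk

theorem bic_neg {T : Finset (Fin M)} {U : Finset (Fin M')} {k : Fin M'} (hk : k ∉ U) :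
    bic T U k = ∅ := if_neg hk

theorem mem_oddT {g : Fin M' → Finset (Fin M)} {i : Fin M} :
    i ∈ oddT g ↔ Odd #(Finset.univ.filter fun k => i ∈ g k) := by
  rw [oddT, Finset.mem_filter]
  exact and_iff_right (Finset.mem_univ _)

theorem mem_oddU {g : Fin M' → Finset (Fin M)} {k : Fin M'} : k ∈ oddU g ↔ Odd #(g k) := by
  rw [oddU, Finset.mem_filter]
  exact and_iff_right (Finset.mem_univ _)

theorem oddU_bic (T : Finset (Fin M)) (U : Finset (Fin M')) :
    oddU (bic T U) = if Odd #T then U else ∅ := by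
  ext k
  rw [mem_oddU]
  by_cases hk : k ∈ U
  · rw [bic_pos hk]
    by_cases hT : Odd #T
    · simp [hk, hT]
    · simp [hT]
  · rw [bic_neg hk]
    by_cases hT : Odd #T
    · simp [hk, hT]
    · simp [hT]

theorem oddT_bic (T : Finset (Fin M)) (U : Finset (Fin M')) :
    oddT (bic T U) = if Odd #U then T else ∅ := by
  ext i
  rw [mem_oddT]
  by_cases hi : i ∈ T
  · have h1 : (Finset.univ.filter fun k => i ∈ bic T U k) = U := by
      ext k
      rw [Finset.mem_filter]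
      by_cases hk : k ∈ U
      · rw [bic_pos hk]; simp [hk, hi]
      · rw [bic_neg hk]; simp [hk]
    rw [h1]
    by_cases hU : Odd #U <;> simp [hU, hi]
  · have h1 : (Finset.univ.filter fun k => i ∈ bic T U k) = ∅ := by
      ext k
      rw [Finset.mem_filter]
      by_cases hk : k ∈ U
      · rw [bic_pos hk]; simp [hi]
      · rw [bic_neg hk]; simp
    rw [h1]
    by_cases hU : Odd #U <;> simp [hU, hi]

/-- Two distinct nonempty columns or a biclique. -/
theorem two_or_bic (g : Fin M' → Finset (Fin M)) : Two g ∨ ∃ T U, g = bic T U := by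
  by_cases h : Two g
  · exact Or.inl h
  right
  by_cases h0 : ∃ k₀, (g k₀).Nonempty
  · obtain ⟨k₀, hk₀⟩ := h0
    refine ⟨g k₀, Finset.univ.filter fun k => (g k).Nonempty, ?_⟩
    funext k
    simp only [bic, Finset.mem_filter, Finset.mem_univ, true_and]
    split_ifs with hk
    · by_contra hne
      exact h ⟨k, k₀, hk, hk₀, hne⟩
    · exact Finset.not_nonempty_iff_eq_empty.mp hk
  · refine ⟨∅, ∅, ?_⟩
    funext k
    simp only [bic, ite_self]
    rw [← Finset.not_nonempty_iff_eq_empty]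
    exact fun h => h0 ⟨k, h⟩

theorem bic_injOn : Set.InjOn (fun p : Finset (Fin M) × Finset (Fin M') => bic p.1 p.2)
    {p | p.1.Nonempty ∧ p.2.Nonempty} := by
  rintro ⟨T, U⟩ ⟨hT, hU⟩ ⟨T', U'⟩ ⟨hT', hU'⟩ h
  simp only at h hT hU hT' hU'
  have hUU : U = U' := by
    ext k
    have hk := congrFun h k
    simp only [bic] at hk
    constructor
    · intro hkU
      by_contra hkU'
      rw [if_pos hkU, if_neg hkU'] at hk
      exact hT.ne_empty hk
    · intro hkU'
      by_contra hkU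
      rw [if_neg hkU, if_pos hkU'] at hk
      exact hT'.ne_empty hk.symm
  subst hUU
  obtain ⟨k, hk⟩ := hU
  have h1 := congrFun h k
  simp only [bic, if_pos hk] at h1
  rw [h1]

end Comb

section Expansion

variable {D M M' : ℕ} {Y : Type*} [NormedAddCommGroup Y] [NormedSpace ℝ Y]

theorem avg_apply' {Ω : Type*} [Fintype Ω] (g : Ω → (Y →L[ℝ] ℝ)) (y : Y) :
    (avg g) y = avg fun ω => g ω y :=
  map_avg (ContinuousLinearMap.apply ℝ ℝ y : (Y →L[ℝ] ℝ) →L[ℝ] ℝ).toLinearMap g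

theorem wc_apply' {m : ℕ} (S : Finset (Fin m)) (g : (Fin m → ℤˣ) → (Y →L[ℝ] ℝ)) (y : Y) :
    (wc S g) y = avg fun ω => walsh S ω * g ω y := by
  simp only [wc, avg_apply', _root_.smul_apply, smul_eq_mul]

theorem clm_avg {Ω : Type*} [Fintype Ω] (L : Y →L[ℝ] ℝ) (f : Ω → Y) :
    L (avg f) = avg fun ω => L (f ω) :=
  map_avg L.toLinearMap f

/-- The tuple `(J_{g_1}, …, J_{g_{M'}})`. -/
def JG (J : Fin M → Fin D → ℤˣ) (g : Fin M' → Finset (Fin M)) : Fin M' → Fin D → ℤˣ :=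
  fun k => JT J (g k)

/-- The Fourier coefficients of the Walsh coefficients. -/
noncomputable def nh (ν : (Fin M' → Fin D → ℤˣ) → (Fin M' → ℤˣ) → Y) (U : Finset (Fin M'))
    (b : Fin M' → Fin D → ℤˣ) : Y :=
  avg fun x : Fin M' → Fin D → ℤˣ => Chi b x • wc U (ν x)

/-- The pairing. -/
noncomputable def beta (J : Fin M → Fin D → ℤˣ) (Z : (Fin M → ℤˣ) → (Y →L[ℝ] ℝ))
    (ν : (Fin M' → Fin D → ℤˣ) → (Fin M' → ℤˣ) → Y) (A : Fin M → Fin M' → ℤˣ) : ℝ :=
  avg fun ε : Fin M → ℤˣ => avg fun δ : Fin M' → ℤˣ => avg fun x : Fin M' → Fin D → ℤˣ =>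
    WW J x (fun i k => A i k * ε i * δ k) * Z ε (ν x δ)

theorem WW_expand (J : Fin M → Fin D → ℤˣ) (x : Fin M' → Fin D → ℤˣ)
    (A : Fin M → Fin M' → ℤˣ) (ε : Fin M → ℤˣ) (δ : Fin M' → ℤˣ) :
    WW J x (fun i k => A i k * ε i * δ k) = ∑ g : Fin M' → Finset (Fin M),
      (∏ k, ∏ i ∈ g k, sg (A i k)) * (walsh (oddT g) ε * walsh (oddU g) δ * Chi (JG J g) x) := by
  unfold WW
  rw [Finset.prod_comm]
  have h1 : ∀ k, ∏ i, (1 + sg (A i k * ε i * δ k) * sg (chi (J i) (x k))) =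
      ∑ T : Finset (Fin M), ∏ i ∈ T, (sg (A i k * ε i * δ k) * sg (chi (J i) (x k))) := by
    intro k
    exact Finset.prod_one_add _
  rw [Finset.prod_congr rfl fun k _ => h1 k, Finset.prod_univ_sum, Fintype.piFinset_univ]
  refine Finset.sum_congr rfl fun g _ => ?_
  rw [← prod_rows, ← prod_cols, Chi, ← Finset.prod_mul_distrib, ← Finset.prod_mul_distrib,
    ← Finset.prod_mul_distrib]
  refine Finset.prod_congr rfl fun k _ => ?_
  rw [JG, JT, chi_prod_left, H1.sg_prod, ← Finset.prod_mul_distrib, ← Finset.prod_mul_distrib,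
    ← Finset.prod_mul_distrib]
  refine Finset.prod_congr rfl fun i _ => ?_
  rw [sg_mul, sg_mul]
  ring

theorem beta_expand (J : Fin M → Fin D → ℤˣ) (Z : (Fin M → ℤˣ) → (Y →L[ℝ] ℝ))
    (ν : (Fin M' → Fin D → ℤˣ) → (Fin M' → ℤˣ) → Y) (A : Fin M → Fin M' → ℤˣ) :
    beta J Z ν A = ∑ g : Fin M' → Finset (Fin M),
      (∏ k, ∏ i ∈ g k, sg (A i k)) * (wc (oddT g) Z) (nh ν (oddU g) (JG J g)) := by
  have h1 : ∀ g : Fin M' → Finset (Fin M), (wc (oddT g) Z) (nh ν (oddU g) (JG J g)) =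
      avg fun ε : Fin M → ℤˣ => avg fun δ : Fin M' → ℤˣ => avg fun x : Fin M' → Fin D → ℤˣ =>
        walsh (oddT g) ε * walsh (oddU g) δ * Chi (JG J g) x * Z ε (ν x δ) := by
    intro g
    rw [wc_apply']
    refine avg_congr fun ε => ?_
    rw [nh, clm_avg, ← avg_mul_left, avg_comm]
    refine avg_congr fun x => ?_
    rw [map_smul, smul_eq_mul, wc, clm_avg, ← avg_mul_left, ← avg_mul_left]
    refine avg_congr fun δ => ?_
    rw [map_smul, smul_eq_mul]
    ring
  unfold beta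
  simp only [WW_expand, Finset.sum_mul]
  simp only [avg_sum]
  refine Finset.sum_congr rfl fun g _ => ?_
  rw [h1, ← avg_mul_left]
  refine avg_congr fun ε => ?_
  rw [← avg_mul_left]
  refine avg_congr fun δ => ?_
  rw [← avg_mul_left]
  refine avg_congr fun x => ?_
  ring

theorem abs_avg_le_const {Ω : Type*} [Fintype Ω] [Nonempty Ω] {f : Ω → ℝ} {b : ℝ}
    (h : ∀ ω, |f ω| ≤ b) : |avg f| ≤ b := by
  refine (abs_avg_le _).trans ?_
  refine (avg_mono h).trans (le_of_eq ?_)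
  exact avg_const _

theorem abs_beta_le {J : Fin M → Fin D → ℤˣ} (hJ : ∀ T : Finset (Fin M), T.Nonempty → JT J T ≠ 1)
    {Z : (Fin M → ℤˣ) → (Y →L[ℝ] ℝ)} {ν : (Fin M' → Fin D → ℤˣ) → (Fin M' → ℤˣ) → Y}
    {β₁ β₂ : ℝ} (hZ : ∀ ε, ‖Z ε‖ ≤ β₁) (hν : ∀ x δ, ‖ν x δ‖ ≤ β₂) (A : Fin M → Fin M' → ℤˣ) :
    |beta J Z ν A| ≤ β₁ * β₂ := by
  have hβ₁ : 0 ≤ β₁ := (norm_nonneg _).trans (hZ 1)
  unfold beta
  refine abs_avg_le_const fun ε => abs_avg_le_const fun δ => ?_
  refine (abs_avg_le _).trans ?_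
  have h1 : ∀ x : Fin M' → Fin D → ℤˣ, |WW J x (fun i k => A i k * ε i * δ k) * Z ε (ν x δ)| ≤
      WW J x (fun i k => A i k * ε i * δ k) * (β₁ * β₂) := by
    intro x
    rw [abs_mul, abs_of_nonneg (WW_nonneg _ _ _)]
    refine mul_le_mul_of_nonneg_left ?_ (WW_nonneg _ _ _)
    rw [← Real.norm_eq_abs]
    exact ((Z ε).le_opNorm _).trans (mul_le_mul (hZ ε) (hν x δ) (norm_nonneg _) hβ₁)
  refine (avg_mono h1).trans (le_of_eq ?_)
  rw [avg_mul_right, avg_WW hJ, one_mul]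

/-- The coefficients of the bicliques. -/
noncomputable def kap (J : Fin M → Fin D → ℤˣ) (Z : (Fin M → ℤˣ) → (Y →L[ℝ] ℝ))
    (ν : (Fin M' → Fin D → ℤˣ) → (Fin M' → ℤˣ) → Y) (T : Finset (Fin M)) (U : Finset (Fin M')) :
    ℝ := (wc T Z) (nh ν U (JG J (bic T U)))

theorem nh_even {ν : (Fin M' → Fin D → ℤˣ) → (Fin M' → ℤˣ) → Y}
    (hνo : ∀ x δ, ν x (-δ) = - ν x δ) {U : Finset (Fin M')} (hU : Even #U)
    (b : Fin M' → Fin D → ℤˣ) : nh ν U b = 0 := by
  unfold nh
  have : ∀ x : Fin M' → Fin D → ℤˣ, Chi b x • wc U (ν x) = 0 := by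
    intro x
    rw [wc_even (ν x) (hνo x) U hU, smul_zero]
  rw [avg_congr this, avg_zero]

theorem norm_wc_le {E : Type*} [NormedAddCommGroup E] [NormedSpace ℝ E] {m : ℕ}
    (T : Finset (Fin m)) (Z : (Fin m → ℤˣ) → E) {b : ℝ} (hZ : ∀ ε, ‖Z ε‖ ≤ b) :
    ‖wc T Z‖ ≤ b := by
  refine norm_avg_le' _ _ fun ε => ?_
  have e2 : ‖walsh T ε‖ = 1 := by
    rw [Real.norm_eq_abs, walsh, Finset.abs_prod]
    exact Finset.prod_eq_one fun i _ => abs_sg _
  rw [norm_smul, e2, one_mul]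
  exact hZ ε

/-- Only the bicliques matter. -/
theorem beta_approx (J : Fin M → Fin D → ℤˣ) {Z : (Fin M → ℤˣ) → (Y →L[ℝ] ℝ)}
    {ν : (Fin M' → Fin D → ℤˣ) → (Fin M' → ℤˣ) → Y} {β₁ e' : ℝ} (hZ : ∀ ε, ‖Z ε‖ ≤ β₁)
    (he' : 0 ≤ e') (hZo : ∀ ε, Z (-ε) = - Z ε) (hνo : ∀ x δ, ν x (-δ) = - ν x δ)
    (hJ : ∀ g : Fin M' → Finset (Fin M), Two g → ‖nh ν (oddU g) (JG J g)‖ ≤ e')
    (A : Fin M → Fin M' → ℤˣ) :
    |beta J Z ν A - ∑ T, ∑ U, kap J Z ν T U * walsh U (fun k => ∏ i ∈ T, A i k)| ≤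
      (2 ^ M) ^ M' * (β₁ * e') := by
  classical
  have hβ₁ : 0 ≤ β₁ := (norm_nonneg _).trans (hZ 1)
  set a : (Fin M' → Finset (Fin M)) → ℝ := fun g =>
    (∏ k, ∏ i ∈ g k, sg (A i k)) * (wc (oddT g) Z) (nh ν (oddU g) (JG J g)) with ha
  set P : Finset (Finset (Fin M) × Finset (Fin M')) :=
    Finset.univ.filter fun p => Odd #p.1 ∧ Odd #p.2 with hP
  have h1 : ∑ T, ∑ U, kap J Z ν T U * walsh U (fun k => ∏ i ∈ T, A i k) =
      ∑ p ∈ P, a (bic p.1 p.2) := by
    rw [← Finset.sum_product', hP, Finset.sum_filter]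
    refine Finset.sum_congr rfl fun p _ => ?_
    obtain ⟨T, U⟩ := p
    simp only
    split_ifs with hp
    · simp only [ha]
      rw [oddT_bic, oddU_bic, if_pos hp.1, if_pos hp.2, kap, mul_comm]
      congr 1
      rw [walsh]
      have h2 : ∀ k, ∏ i ∈ bic T U k, sg (A i k) =
          if k ∈ U then sg (∏ i ∈ T, A i k) else 1 := by
        intro k
        simp only [bic]
        split_ifs with hk
        · rw [H1.sg_prod]
        · simp
      rw [Finset.prod_congr rfl fun k _ => h2 k, ← Finset.prod_filter]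
      congr 1
      ext k
      simp
    · rw [kap]
      rw [not_and_or, Nat.not_odd_iff_even, Nat.not_odd_iff_even] at hp
      rcases hp with hp | hp
      · rw [wc_even Z hZo T hp, _root_.zero_apply, zero_mul]
      · rw [nh_even hνo hp, map_zero, zero_mul]
  have h2 : ∑ p ∈ P, a (bic p.1 p.2) = ∑ g ∈ P.image (fun p => bic p.1 p.2), a g := by
    rw [Finset.sum_image]
    intro p hp p' hp' h
    refine bic_injOn ?_ ?_ h
    · simp only [hP, Finset.coe_filter, Finset.mem_univ, true_and, Set.mem_ofPred_eq] at hp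
      exact ⟨Finset.card_pos.mp hp.1.pos, Finset.card_pos.mp hp.2.pos⟩
    · simp only [hP, Finset.coe_filter, Finset.mem_univ, true_and, Set.mem_ofPred_eq] at hp'
      exact ⟨Finset.card_pos.mp hp'.1.pos, Finset.card_pos.mp hp'.2.pos⟩
  have h3 : beta J Z ν A - ∑ g ∈ P.image (fun p => bic p.1 p.2), a g =
      ∑ g ∈ (P.image (fun p => bic p.1 p.2))ᶜ, a g := by
    rw [beta_expand, ← Finset.sum_add_sum_compl (P.image (fun p => bic p.1 p.2)) a]
    ring
  have hsgn : ∀ g : Fin M' → Finset (Fin M), |∏ k, ∏ i ∈ g k, sg (A i k)| = 1 := by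
    intro g
    rw [Finset.abs_prod]
    refine Finset.prod_eq_one fun k _ => ?_
    rw [Finset.abs_prod]
    exact Finset.prod_eq_one fun i _ => abs_sg _
  have h4 : ∀ g ∈ (P.image (fun p => bic p.1 p.2))ᶜ, |a g| ≤ β₁ * e' := by
    intro g hg
    simp only [ha]
    rw [abs_mul, hsgn, one_mul]
    rcases two_or_bic g with h | ⟨T, U, rfl⟩
    · rw [← Real.norm_eq_abs]
      exact ((wc (oddT g) Z).le_opNorm _).trans
        (mul_le_mul (norm_wc_le _ _ hZ) (hJ g h) (norm_nonneg _) hβ₁)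
    · have h0 : (wc (oddT (bic T U)) Z) (nh ν (oddU (bic T U)) (JG J (bic T U))) = 0 := by
        rw [Finset.mem_compl, Finset.mem_image] at hg
        push Not at hg
        have h5 : ¬ (Odd #T ∧ Odd #U) := by
          intro h6
          exact hg (T, U) (by simp [hP, h6]) rfl
        rw [not_and_or] at h5
        rcases h5 with h5 | h5
        · have : oddU (bic T U) = ∅ := by rw [oddU_bic, if_neg h5]
          rw [this, nh_even hνo (by simp), map_zero]
        · have : oddT (bic T U) = ∅ := by rw [oddT_bic, if_neg h5]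
          rw [this, wc_even Z hZo ∅ (by simp), _root_.zero_apply]
      rw [h0, abs_zero]
      positivity
  rw [h1, h2, h3]
  refine (Finset.abs_sum_le_sum_abs _ _).trans ?_
  refine (Finset.sum_le_sum h4).trans ?_
  rw [Finset.sum_const, nsmul_eq_mul]
  refine mul_le_mul_of_nonneg_right ?_ (by positivity)
  have h6 : #((P.image (fun p => bic p.1 p.2))ᶜ) ≤ (2 ^ M) ^ M' := by
    refine (Finset.card_le_univ _).trans (le_of_eq ?_)
    rw [Fintype.card_fun, Fintype.card_finset, Fintype.card_fin, Fintype.card_fin]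
  exact_mod_cast h6

end Expansion

end Vale.Agent.P111.TW
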