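import Vale.Agent.P111.TW.GenR
import Vale.Agent.P111.TW.E

/-!
Infinite dimensional consequences of the explicit rate for Walsh systems.
-/

namespace Vale.Agent.P111.TW

open Finset Vale.Agent.P111

universe v

/-- Arithmetic: choice of the exponent. -/
theorem exists_R (A a : ℕ) (K : ℝ) (hK : 1 ≤ K) : ∃ s : ℝ, 0 < s ∧ ∃ D₀ : ℕ, ∀ D ≥ D₀,
    ∃ R : ℕ, A * 2 ^ (a * R) ≤ D ∧ K * Real.exp (s * D * Real.log D) < ((2:ℝ) ^ D) ^ R := by
  obtain ⟨a', ha'⟩ : ∃ a' : ℕ, a' = a + 1 := ⟨_, rfl⟩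
  obtain ⟨A', hA'⟩ : ∃ A' : ℕ, A' = A + 1 := ⟨_, rfl⟩
  have ha0 : (0:ℝ) < a' := by rw [ha']; positivity
  have hA0 : 0 < A' := by omega
  have hA0' : (0:ℝ) < A' := by exact_mod_cast hA0
  have hlog2 : 0 < Real.log 2 := Real.log_pos (by norm_num)
  obtain ⟨W, hW⟩ : ∃ W : ℝ, W = 2 * a' * (Real.log A' / a' + Real.log 2 + Real.log K + 1) :=
    ⟨_, rfl⟩
  obtain ⟨D₁, hD₁⟩ := exists_nat_ge (Real.exp W)
  refine ⟨1 / (2 * a'), by positivity, D₁ + A' + 2, fun D hD => ?_⟩
  have hD0 : 0 < D := by omega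
  have hDR : (1:ℝ) ≤ D := by exact_mod_cast hD0
  refine ⟨Nat.log (2 ^ a') (D / A'), ?_, ?_⟩
  · have hne : D / A' ≠ 0 := by
      rw [Nat.div_ne_zero_iff]
      exact ⟨by omega, by omega⟩
    have h1 := Nat.pow_log_le_self (2 ^ a') hne
    have h2 : A' * (2 ^ a') ^ Nat.log (2 ^ a') (D / A') ≤ D :=
      (Nat.mul_le_mul_left _ h1).trans (Nat.mul_div_le _ _)
    refine le_trans ?_ h2
    rw [← pow_mul]
    refine Nat.mul_le_mul (by omega) (Nat.pow_le_pow_right (by norm_num) ?_)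
    exact Nat.mul_le_mul_right _ (by omega)
  · obtain ⟨R, hR⟩ : ∃ R : ℕ, R = Nat.log (2 ^ a') (D / A') := ⟨_, rfl⟩
    rw [← hR]
    have hb : 1 < 2 ^ a' := Nat.one_lt_two_pow (by omega)
    have h1 : D / A' < (2 ^ a') ^ (R + 1) := hR ▸ Nat.lt_pow_succ_log_self hb _
    have h2 : D < (2 ^ a') ^ (R + 1) * A' := (Nat.div_lt_iff_lt_mul hA0).1 h1
    have h3 : (D:ℝ) < ((2:ℝ) ^ a') ^ (R + 1) * A' := by exact_mod_cast h2
    have h4 : Real.log D < a' * (R + 1) * Real.log 2 + Real.log A' := by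
      have h5 := Real.log_lt_log (by linarith) h3
      rw [Real.log_mul (by positivity) (by positivity), ← pow_mul, Real.log_pow] at h5
      push_cast at h5
      exact h5
    have h5 : W ≤ Real.log D := by
      have h6 : Real.exp W ≤ D := hD₁.trans (by exact_mod_cast (by omega : D₁ ≤ D))
      calc W = Real.log (Real.exp W) := (Real.log_exp W).symm
        _ ≤ Real.log D := Real.log_le_log (Real.exp_pos _) h6
    have hK0 : 0 < K := by linarith
    have hlK : 0 ≤ Real.log K := Real.log_nonneg hK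
    rw [← Real.log_lt_log_iff (by positivity) (by positivity),
      Real.log_mul (by positivity) (Real.exp_ne_zero _), Real.log_exp, ← pow_mul, Real.log_pow]
    push_cast
    -- `log K + D log D / (2a') < D R log 2`
    have h6 : Real.log D / a' < (R + 1) * Real.log 2 + Real.log A' / a' := by
      rw [div_lt_iff₀ ha0]
      have : ((R + 1) * Real.log 2 + Real.log A' / a') * a' =
          a' * (R + 1) * Real.log 2 + Real.log A' := by
        field_simp
      rw [this]
      exact h4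
    have h7 : Real.log A' / a' + Real.log 2 + Real.log K + 1 ≤ Real.log D / (2 * a') := by
      rw [le_div_iff₀ (by positivity)]
      calc _ = W := by rw [hW]; ring
        _ ≤ _ := h5
    have h8 : Real.log D / a' = Real.log D / (2 * a') + Real.log D / (2 * a') := by
      field_simp
      ring
    have h9 : Real.log K + 1 + Real.log D / (2 * a') < R * Real.log 2 := by linarith
    have h10 : Real.log K ≤ D * Real.log K := le_mul_of_one_le_left hlK hDR
    calc Real.log K + 1 / (2 * a') * D * Real.log D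
        ≤ D * Real.log K + D * (Real.log D / (2 * a')) := by
          refine add_le_add h10 (le_of_eq ?_)
          ring
      _ < D * (R * Real.log 2) := by
          have : D * (Real.log K + 1 + Real.log D / (2 * a')) < D * (R * Real.log 2) :=
            mul_lt_mul_of_pos_left h9 (by linarith)
          nlinarith
      _ = D * R * Real.log 2 := by ring

/-- The infinite dimensional form: the ranks grow at least like `exp (s D log D)`. -/
theorem inf_rate (q r : ℝ) (X : Type v) [NormedAddCommGroup X]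
    [NormedSpace ℝ X] (e : Finset ℕ → X) (B c : ℝ) (hc : 0 < c)
    (he : ∀ S, ‖e S‖ ≤ B)
    (hlow : ∀ (s : Finset (Finset ℕ)) (a : Finset ℕ → ℝ) (x : ℕ → ℤˣ),
      c * |∑ S ∈ s, a S * ∏ i ∈ S, sg (x i)| ≤ ‖∑ S ∈ s, a S • e S‖)
    (hT : ∀ s : ℝ, 0 < s → ∀ D₀ : ℕ, ∃ D ≥ D₀, ∃ T : X →L[ℝ] X, ‖T‖ ≤ B ∧
      (∀ S ⊆ Finset.range D, T (e S) = e S) ∧
      FiniteDimensional ℝ (LinearMap.range (T : X →ₗ[ℝ] X)) ∧
      (Module.finrank ℝ (LinearMap.range (T : X →ₗ[ℝ] X)) : ℝ) ≤
        Real.exp (s * D * Real.log D)) :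
    ¬ (HasCotype q X ∧ HasCotype r (X →L[ℝ] ℝ)) := by
  classical
  rintro ⟨⟨hq, C₁, h1⟩, ⟨hr, C₂, h2⟩⟩
  set C : ℝ := max (max C₁ C₂) (max B 1) with hC
  have hC1 : C₁ ≤ C := (le_max_left _ _).trans (le_max_left _ _)
  have hC2 : C₂ ≤ C := (le_max_right _ _).trans (le_max_left _ _)
  have hC3 : B ≤ C := (le_max_left _ _).trans (le_max_right _ _)
  have hC4 : 1 ≤ C := (le_max_right _ _).trans (le_max_right _ _)
  have hC0 : 0 < C := by linarith
  have h1' : CotypeWith q C X := fun n y => (h1 n y).trans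
    (mul_le_mul_of_nonneg_right hC1 (Real.rpow_nonneg (avg_nonneg fun _ => by positivity) _))
  have h2' : CotypeWith r C (X →L[ℝ] ℝ) := fun n y => (h2 n y).trans
    (mul_le_mul_of_nonneg_right hC2 (Real.rpow_nonneg (avg_nonneg fun _ => by positivity) _))
  set ρ : ℝ := max (C / c) 1 with hρ
  have hρ1 : 1 ≤ ρ := le_max_right _ _
  have hρC : 1 / ρ ≤ c / C := by
    rw [one_div, ← inv_div]
    exact inv_anti₀ (by positivity) (le_max_left _ _)
  obtain ⟨A, a, hrate⟩ := rate q r C ρ hq hr hC4 hρ1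
  obtain ⟨s, hs, D₀, hD₀⟩ := exists_R A a (C ^ 2) (one_le_pow₀ hC4)
  obtain ⟨D, hD, T, hT1, hT2, hT3, hT4⟩ := hT s hs D₀
  obtain ⟨R, hR1, hR2⟩ := hD₀ D hD
  choose θ hθ1 hθ2 using exists_theta e hc hlow
  have hrk : (0:ℝ) ≤ Module.finrank ℝ (LinearMap.range (T : X →ₗ[ℝ] X)) * C ^ 2 := by positivity
  have hcount := countBd_finrank T (hT1.trans hC3)
  have hΛ : #(Finset.univ : Finset (Fin D → ℤˣ)) = 2 ^ D := by simp
  have h3 := hrate R X T _ hrk hcount h1' h2' (hT1.trans hC3) D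
    (fun x => c • θ (TK.ext x)) (fun x => by
      rw [norm_smul, Real.norm_of_nonneg hc.le]
      calc c * ‖θ (TK.ext x)‖ ≤ c * c⁻¹ := mul_le_mul_of_nonneg_left (hθ1 _) hc.le
        _ = 1 := mul_inv_cancel₀ hc.ne') Finset.univ (fun b _ => ?_) (by
      rw [hΛ]
      exact Nat.pow_le_pow_right (by norm_num) hR1)
  · rw [hΛ] at h3
    push_cast at h3
    have h4 : ((2:ℝ) ^ D) ^ R ≤ C ^ 2 * Real.exp (s * D * Real.log D) := by
      refine h3.trans ?_
      rw [mul_comm]
      exact mul_le_mul_of_nonneg_left hT4 (by positivity)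
    exact absurd hR2 (not_lt.2 h4)
  · refine hρC.trans ?_
    rw [div_le_iff₀ hC0]
    set S : Finset ℕ := (TK.neg b).map Fin.valEmbedding with hS
    have hSD : S ⊆ Finset.range D := by
      intro i hi
      obtain ⟨j, _, rfl⟩ := Finset.mem_map.1 hi
      exact Finset.mem_range.2 j.2
    have h5 : fc T (fun x => c • θ (TK.ext x)) b (e S) = c := by
      have h6 : fc T (fun x => c • θ (TK.ext x)) b (e S) =
          avg fun x : Fin D → ℤˣ => sg (TK.chi b x) * (c * θ (TK.ext x) (T (e S))) := by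
        have h8 := Vale.Agent.P111.map_avg
          (ContinuousLinearMap.apply ℝ ℝ (e S) : (X →L[ℝ] ℝ) →L[ℝ] ℝ).toLinearMap
          (fun x => sg (TK.chi b x) • (c • θ (TK.ext x)).comp T)
        refine Eq.trans ?_ (h8.trans (avg_congr fun x => ?_))
        · rfl
        · simp
      rw [h6]
      have h7 : ∀ x : Fin D → ℤˣ, sg (TK.chi b x) * (c * θ (TK.ext x) (T (e S))) = c := by
        intro x
        rw [hT2 S hSD, hθ2]
        have h9 : ∏ i ∈ S, sg (TK.ext x i) = sg (TK.chi b x) := by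
          rw [hS, Finset.prod_map, TK.chi, H1.sg_prod]
          refine Finset.prod_congr rfl fun i _ => ?_
          rw [show (Fin.valEmbedding i : ℕ) = (i : ℕ) from rfl, TK.ext_val]
        rw [h9, mul_left_comm, sg_mul_self, mul_one]
      simp only [h7]
      exact avg_const _
    calc c = |fc T (fun x => c • θ (TK.ext x)) b (e S)| := by rw [h5, abs_of_pos hc]
      _ ≤ ‖fc T (fun x => c • θ (TK.ext x)) b‖ * ‖e S‖ := (fc _ _ _).le_opNorm _
      _ ≤ ‖fc T (fun x => c • θ (TK.ext x)) b‖ * C :=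
          mul_le_mul_of_nonneg_left ((he S).trans hC3) (norm_nonneg _)

end Vale.Agent.P111.TW
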