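import Vale.Agent.P111.TW.GenR
import Vale.Agent.P111.TW.Hilb
import Vale.Agent.P111.WF.Fd

/-!
Walsh systems: the explicit rate `N ^ (c log log N)`.
-/

set_option linter.unusedSectionVars false

namespace Vale.Agent.P111.TW

open Finset Vale.Agent.P111 Vale.Agent.P111.TK

/-- A single large coefficient makes the a priori bound at least a constant. -/
theorem one_le_of_countBd {X : Type*} [NormedAddCommGroup X] [NormedSpace ℝ X] {T : X →L[ℝ] X}
    {d : ℝ} (hd : CountBd T d) {ρ : ℝ} (hρ : 1 ≤ ρ) {D : ℕ} {θ : (Fin D → ℤˣ) → (X →L[ℝ] ℝ)}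
    (hθ : ∀ x, ‖θ x‖ ≤ 1) {b : Fin D → ℤˣ} (hb : 1 / ρ ≤ ‖fc T θ b‖) : 1 ≤ 4 * ρ ^ 2 * d := by
  classical
  have hρ0 : 0 < ρ := by linarith
  have h := hd 1 D 1 (1 / (2 * ρ)) (by positivity) (fun x => θ (x 0)) fun x => hθ (x 0)
  have hmem : (fun _ : Fin 1 => b) ∈ Finset.univ.filter fun b : Fin 1 → Fin D → ℤˣ =>
      1 / (2 * ρ) < ‖avg fun x => Chi b x • (θ (x 0)).comp T‖ := by
    rw [Finset.mem_filter]
    refine ⟨Finset.mem_univ _, ?_⟩
    have h1 : (avg fun x : Fin 1 → Fin D → ℤˣ => Chi (fun _ : Fin 1 => b) x • (θ (x 0)).comp T) =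
        fc T θ b := by
      have h2 := avg_comp_equiv (Equiv.funUnique (Fin 1) (Fin D → ℤˣ)).symm
        (fun x : Fin 1 → Fin D → ℤˣ => Chi (fun _ : Fin 1 => b) x • (θ (x 0)).comp T)
      rw [← h2]
      unfold fc
      refine avg_congr fun x => ?_
      simp [Chi]
    rw [h1]
    refine lt_of_lt_of_le ?_ hb
    apply one_div_lt_one_div_of_lt hρ0
    linarith
  have h1 : (1:ℝ) ≤ #(Finset.univ.filter fun b : Fin 1 → Fin D → ℤˣ =>
      1 / (2 * ρ) < ‖avg fun x => Chi b x • (θ (x 0)).comp T‖) := by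
    exact_mod_cast Finset.card_pos.mpr ⟨_, hmem⟩
  have h2 : 1 * (1 / (2 * ρ)) ^ 2 ≤ d * 1 ^ 2 :=
    (mul_le_mul_of_nonneg_right h1 (by positivity)).trans h
  have h3 : (1 / (2 * ρ)) ^ 2 = 1 / (4 * ρ ^ 2) := by
    field_simp
    norm_num
  rw [h3, one_mul, one_pow, mul_one, div_le_iff₀ (by positivity)] at h2
  linarith

/-- From the bounds for all `R` to a single exponential bound. -/
theorem exp_of_pow {A a : ℕ} (ha : 1 ≤ a) {N : ℕ} {d κ : ℝ} (hκ : 1 ≤ κ) (hN : N ≠ 0)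
    (h1 : 1 ≤ κ * d)
    (h : ∀ R : ℕ, 2 ^ (A * 2 ^ (a * R)) ≤ N → (N : ℝ) ^ R ≤ d) :
    Real.exp (1 / (4 * a) * (Real.log N * Real.log (Real.log N))) ≤
      κ * Real.exp (max ((A:ℝ) ^ 2) (Real.exp (4 * a)) ^ 2) * d := by
  obtain ⟨l, hl⟩ : ∃ l : ℝ, l = Real.log N := ⟨_, rfl⟩
  obtain ⟨L, hL⟩ : ∃ L : ℝ, L = max ((A:ℝ) ^ 2) (Real.exp (4 * a)) := ⟨_, rfl⟩
  rw [← hl, ← hL]
  have ha' : (1:ℝ) ≤ a := by exact_mod_cast ha
  have hN1 : (1:ℝ) ≤ N := by exact_mod_cast Nat.one_le_iff_ne_zero.mpr hN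
  have hl0 : 0 ≤ l := hl ▸ Real.log_nonneg hN1
  have hLe : Real.exp (4 * a) ≤ L := hL ▸ le_max_right _ _
  have hLA : (A:ℝ) ^ 2 ≤ L := hL ▸ le_max_left _ _
  have hL0 : 0 < L := lt_of_lt_of_le (Real.exp_pos _) hLe
  have hκd : 0 < κ * d := by linarith
  have hc : 0 < 1 / (4 * (a:ℝ)) := by positivity
  have hc1 : 1 / (4 * (a:ℝ)) ≤ 1 := by
    rw [div_le_one (by positivity)]
    linarith
  have hd : 0 < d := by
    rcases lt_or_ge 0 d with h | h
    · exact h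
    · nlinarith
  rcases lt_or_ge l L with hlt | hge
  · have h2 : l * Real.log l ≤ l * l := by
      refine mul_le_mul_of_nonneg_left ?_ hl0
      rcases hl0.eq_or_lt with h0 | h0
      · rw [← h0, Real.log_zero]
      · linarith [Real.log_le_sub_one_of_pos h0]
    have h3 : 1 / (4 * (a:ℝ)) * (l * Real.log l) ≤ L ^ 2 := by
      calc 1 / (4 * (a:ℝ)) * (l * Real.log l) ≤ 1 / (4 * (a:ℝ)) * (l * l) :=
            mul_le_mul_of_nonneg_left h2 hc.le
        _ ≤ 1 * (l * l) := mul_le_mul_of_nonneg_right hc1 (mul_nonneg hl0 hl0)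
        _ ≤ L ^ 2 := by nlinarith
    calc Real.exp (1 / (4 * (a:ℝ)) * (l * Real.log l)) ≤ Real.exp (L ^ 2) := Real.exp_le_exp.mpr h3
      _ = Real.exp (L ^ 2) * 1 := (mul_one _).symm
      _ ≤ Real.exp (L ^ 2) * (κ * d) := mul_le_mul_of_nonneg_left h1 (Real.exp_pos _).le
      _ = _ := by ring
  · have hlpos : 0 < l := lt_of_lt_of_le hL0 hge
    obtain ⟨s, hs⟩ : ∃ s : ℝ, s = Real.log l := ⟨_, rfl⟩
    have hsa : 4 * (a:ℝ) ≤ s := by
      rw [hs, Real.le_log_iff_exp_le hlpos]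
      exact hLe.trans hge
    rw [← hs]
    obtain ⟨R, hR⟩ : ∃ R : ℕ, R = ⌊s / (2 * a)⌋₊ := ⟨_, rfl⟩
    have hs0 : 0 ≤ s := by linarith
    have hR1 : (R:ℝ) ≤ s / (2 * a) := hR ▸ Nat.floor_le (by positivity)
    have hR2 : s / (2 * a) < R + 1 := hR ▸ Nat.lt_floor_add_one _
    have hR3 : s / (4 * a) ≤ R := by
      have h4 : 1 ≤ s / (4 * a) := by
        rw [le_div_iff₀ (by positivity)]
        linarith
      have h5 : s / (2 * a) = s / (4 * a) + s / (4 * a) := by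
        field_simp
        ring
      linarith
    have hmul : (2:ℝ) ^ (A * 2 ^ (a * R)) ≤ N := by
      have h2a : (2:ℝ) ^ (a * R) ≤ Real.sqrt l := by
        have h6 : (2:ℝ) ^ (a * R) ≤ Real.exp (a * R) := by
          have h7 : (2:ℝ) ≤ Real.exp 1 := by
            have := Real.add_one_le_exp (1:ℝ)
            linarith
          calc (2:ℝ) ^ (a * R) ≤ (Real.exp 1) ^ (a * R) := pow_le_pow_left₀ (by norm_num) h7 _
            _ = Real.exp (a * R) := by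
              rw [← Real.exp_nat_mul]
              push_cast
              ring_nf
        have h8 : Real.sqrt l = Real.exp (s / 2) := by
          rw [Real.sqrt_eq_rpow, Real.rpow_def_of_pos hlpos, ← hs]
          ring_nf
        rw [h8]
        refine h6.trans (Real.exp_le_exp.mpr ?_)
        rw [le_div_iff₀ (by positivity)] at hR1
        linarith
      have hsq : (A:ℝ) ≤ Real.sqrt l := Real.le_sqrt_of_sq_le (hLA.trans hge)
      have h9 : ((A * 2 ^ (a * R) : ℕ) : ℝ) ≤ l := by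
        push_cast
        calc (A:ℝ) * 2 ^ (a * R) ≤ Real.sqrt l * Real.sqrt l :=
              mul_le_mul hsq h2a (by positivity) (Real.sqrt_nonneg _)
          _ = l := Real.mul_self_sqrt hl0
      calc (2:ℝ) ^ (A * 2 ^ (a * R)) ≤ (Real.exp 1) ^ (A * 2 ^ (a * R)) := by
            refine pow_le_pow_left₀ (by norm_num) ?_ _
            have := Real.add_one_le_exp (1:ℝ)
            linarith
        _ = Real.exp ((A * 2 ^ (a * R) : ℕ) : ℝ) := by
            rw [← Real.exp_nat_mul, mul_one]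
        _ ≤ Real.exp l := Real.exp_le_exp.mpr h9
        _ = N := by rw [hl, Real.exp_log (by linarith)]
    have hmain := h R (by exact_mod_cast hmul)
    have h10 : Real.exp (1 / (4 * (a:ℝ)) * (l * s)) ≤ (N:ℝ) ^ R := by
      have h11 : (N:ℝ) ^ R = Real.exp (R * l) := by
        rw [Real.exp_nat_mul, hl, Real.exp_log (by linarith)]
      rw [h11]
      refine Real.exp_le_exp.mpr ?_
      calc 1 / (4 * (a:ℝ)) * (l * s) = s / (4 * a) * l := by ring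
        _ ≤ R * l := mul_le_mul_of_nonneg_right hR3 hl0
    refine (h10.trans hmain).trans ?_
    refine le_mul_of_one_le_left hd.le ?_
    exact one_le_mul_of_one_le_of_one_le hκ (Real.one_le_exp (by positivity))

/-- The explicit rate in exponential form. -/
theorem rate_exp (q r C ε : ℝ) (hq : 2 ≤ q) (hr : 2 ≤ r) (hε : 0 < ε) :
    ∃ c K : ℝ, 0 < c ∧ 0 < K ∧ ∀ (X : Type*) [NormedAddCommGroup X] [NormedSpace ℝ X]
      (T : X →L[ℝ] X) (d : ℝ), 0 ≤ d → CountBd T d →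
      CotypeWith q C X → CotypeWith r C (X →L[ℝ] ℝ) → ‖T‖ ≤ C →
      ∀ (D : ℕ) (θ : (Fin D → ℤˣ) → (X →L[ℝ] ℝ)), (∀ x, ‖θ x‖ ≤ 1) →
      ∀ Λ : Finset (Fin D → ℤˣ), Λ.Nonempty → (∀ b ∈ Λ, ε ≤ ‖fc T θ b‖) →
      Real.exp (c * (Real.log #Λ * Real.log (Real.log #Λ))) ≤ K * d := by
  obtain ⟨C', hC'⟩ : ∃ C' : ℝ, C' = max 1 C := ⟨_, rfl⟩
  have hC1 : 1 ≤ C' := hC' ▸ le_max_left _ _
  have hCC' : C ≤ C' := hC' ▸ le_max_right _ _
  obtain ⟨ρ, hρ⟩ : ∃ ρ : ℝ, ρ = max 1 (1 / ε) := ⟨_, rfl⟩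
  have hρ1 : 1 ≤ ρ := hρ ▸ le_max_left _ _
  have hρε : 1 / ρ ≤ ε := by
    rw [div_le_iff₀ (by linarith)]
    have : 1 / ε ≤ ρ := hρ ▸ le_max_right _ _
    rw [div_le_iff₀ hε] at this
    linarith
  obtain ⟨A, a, h⟩ := rate q r C' ρ hq hr hC1 hρ1
  have hκ : 1 ≤ 4 * ρ ^ 2 := by nlinarith
  refine ⟨1 / (4 * ((a + 1 : ℕ) : ℝ)), 4 * ρ ^ 2 *
    Real.exp (max ((A:ℝ) ^ 2) (Real.exp (4 * ((a + 1 : ℕ) : ℝ))) ^ 2), by positivity,
    by positivity, ?_⟩
  intro X _ _ T d hd0 hd hX hX' hT D θ hθ Λ hΛne hΛ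
  have hΛ' : ∀ b ∈ Λ, 1 / ρ ≤ ‖fc T θ b‖ := fun b hb => hρε.trans (hΛ b hb)
  obtain ⟨b₀, hb₀⟩ := hΛne
  refine exp_of_pow (A := A) (a := a + 1) (by omega) hκ (Finset.card_pos.mpr ⟨b₀, hb₀⟩).ne'
    (one_le_of_countBd hd hρ1 hθ (hΛ' b₀ hb₀)) ?_
  intro R hR
  refine h R X T d hd0 hd (WF.cotype_mono hX hCC') (WF.cotype_mono hX' hCC') (hT.trans hCC') D θ
    hθ Λ hΛ' (le_trans ?_ hR)
  refine Nat.pow_le_pow_right (by norm_num) (Nat.mul_le_mul_left _ ?_)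
  exact Nat.pow_le_pow_right (by norm_num) (Nat.mul_le_mul_right _ (by omega))

/-- The sign vector of a set. -/
def vecOf {D : ℕ} (S : Finset (Fin D)) : Fin D → ℤˣ := fun i => if i ∈ S then -1 else 1

theorem vecOf_injective {D : ℕ} : Function.Injective (vecOf : Finset (Fin D) → _) := by
  intro S S' h
  ext i
  have h1 := congrFun h i
  unfold vecOf at h1
  by_cases h2 : i ∈ S <;> by_cases h3 : i ∈ S' <;> simp_all

theorem sg_chi_vecOf {D : ℕ} (S : Finset (Fin D)) (x : Fin D → ℤˣ) :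
    sg (chi (vecOf S) x) = ∏ i ∈ S, sg (x i) := by
  classical
  have h1 : neg (vecOf S) = S := by
    ext i
    by_cases h : i ∈ S <;> simp [neg, vecOf, h]
  rw [chi, H1.sg_prod, h1]

/-- **The explicit rate, operators.** -/
theorem rate_op (q r C ε : ℝ) (hq : 2 ≤ q) (hr : 2 ≤ r) (hε : 0 < ε) :
    ∃ c K : ℝ, 0 < c ∧ 0 < K ∧ ∀ (X : Type*) [NormedAddCommGroup X] [NormedSpace ℝ X]
      (T : X →L[ℝ] X) (d : ℝ), 0 ≤ d → CountBd T d →
      CotypeWith q C X → CotypeWith r C (X →L[ℝ] ℝ) → ‖T‖ ≤ C →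
      ∀ (D : ℕ) (θ : (Fin D → ℤˣ) → (X →L[ℝ] ℝ)), (∀ x, ‖θ x‖ ≤ 1) →
      ∀ F : Finset (Finset (Fin D)), F.Nonempty →
      (∀ S ∈ F, ε ≤ ‖avg fun x : Fin D → ℤˣ => (∏ i ∈ S, sg (x i)) • (θ x).comp T‖) →
      Real.exp (c * (Real.log #F * Real.log (Real.log #F))) ≤ K * d := by
  classical
  obtain ⟨c, K, hc, hK, h⟩ := rate_exp q r C ε hq hr hε
  refine ⟨c, K, hc, hK, ?_⟩
  intro X _ _ T d hd0 hd hX hX' hT D θ hθ F hF hFε
  have h1 := h X T d hd0 hd hX hX' hT D θ hθ (F.image vecOf) (hF.image _) (by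
    intro b hb
    obtain ⟨S, hS, rfl⟩ := Finset.mem_image.mp hb
    refine (hFε S hS).trans (le_of_eq ?_)
    unfold fc
    simp only [sg_chi_vecOf])
  rwa [Finset.card_image_of_injective _ vecOf_injective] at h1

/-- **The explicit rate, operators of finite rank.** -/
theorem rate_rank (q r C ε : ℝ) (hq : 2 ≤ q) (hr : 2 ≤ r) (hε : 0 < ε) :
    ∃ c K : ℝ, 0 < c ∧ 0 < K ∧ ∀ (X : Type*) [NormedAddCommGroup X] [NormedSpace ℝ X]
      (T : X →L[ℝ] X), CotypeWith q C X → CotypeWith r C (X →L[ℝ] ℝ) → ‖T‖ ≤ C →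
      FiniteDimensional ℝ (LinearMap.range (T : X →ₗ[ℝ] X)) →
      ∀ (D : ℕ) (θ : (Fin D → ℤˣ) → (X →L[ℝ] ℝ)), (∀ x, ‖θ x‖ ≤ 1) →
      ∀ F : Finset (Finset (Fin D)), F.Nonempty →
      (∀ S ∈ F, ε ≤ ‖avg fun x : Fin D → ℤˣ => (∏ i ∈ S, sg (x i)) • (θ x).comp T‖) →
      Real.exp (c * (Real.log #F * Real.log (Real.log #F))) ≤
        K * Module.finrank ℝ (LinearMap.range (T : X →ₗ[ℝ] X)) := by
  obtain ⟨c, K, hc, hK, h⟩ := rate_op q r C ε hq hr hε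
  have hC1 : 0 < C ^ 2 + 1 := by positivity
  refine ⟨c, K * (C ^ 2 + 1), hc, by positivity, ?_⟩
  intro X _ _ T hX hX' hT _ D θ hθ F hF hFε
  refine (h X T _ (by positivity) (countBd_finrank T hT) hX hX' hT D θ hθ F hF hFε).trans ?_
  rw [mul_assoc]
  refine mul_le_mul_of_nonneg_left ?_ hK.le
  rw [mul_comm]
  exact mul_le_mul_of_nonneg_right (by linarith) (Nat.cast_nonneg _)

/-- **The explicit rate, finite dimensional spaces.** -/
theorem rate_fd (q r C ε : ℝ) (hq : 2 ≤ q) (hr : 2 ≤ r) (hε : 0 < ε) :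
    ∃ c K : ℝ, 0 < c ∧ 0 < K ∧ ∀ (E : Type*) [NormedAddCommGroup E] [NormedSpace ℝ E]
      [FiniteDimensional ℝ E], CotypeWith q C E → CotypeWith r C (E →L[ℝ] ℝ) →
      ∀ (D : ℕ) (θ : (Fin D → ℤˣ) → E), (∀ x, ‖θ x‖ ≤ 1) →
      ∀ F : Finset (Finset (Fin D)), F.Nonempty →
      (∀ S ∈ F, ε ≤ ‖avg fun x : Fin D → ℤˣ => (∏ i ∈ S, sg (x i)) • θ x‖) →
      Real.exp (c * (Real.log #F * Real.log (Real.log #F))) ≤ K * Module.finrank ℝ E := by
  obtain ⟨c, K, hc, hK, h⟩ := rate_rank r q (max C 1) ε hr hq hε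
  refine ⟨c, K, hc, hK, ?_⟩
  intro E _ _ _ hE hE' D θ hθ F hF hFε
  let X := E →L[ℝ] ℝ
  have hX : CotypeWith r (max C 1) X := WF.cotype_mono hE' (le_max_left _ _)
  have hX' : CotypeWith q (max C 1) (X →L[ℝ] ℝ) :=
    WF.cotype_mono (WF.cotype_bidual hE) (le_max_left _ _)
  let ι : E →ₗᵢ[ℝ] (X →L[ℝ] ℝ) := NormedSpace.inclusionInDoubleDualLi ℝ
  have hθ' : ∀ x, ‖ι (θ x)‖ ≤ 1 := fun x => by
    rw [LinearIsometry.norm_map]; exact hθ x
  have hfd : FiniteDimensional ℝ X :=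
    (LinearMap.toContinuousLinearMap (𝕜 := ℝ) (E := E) (F' := ℝ)).finiteDimensional
  have hid : ‖ContinuousLinearMap.id ℝ X‖ ≤ max C 1 :=
    ContinuousLinearMap.norm_id_le.trans (le_max_right _ _)
  have h1 := h X (ContinuousLinearMap.id ℝ X) hX hX' hid inferInstance D (fun x => ι (θ x)) hθ' F
    hF (by
      intro S hS
      refine (hFε S hS).trans (le_of_eq ?_)
      rw [← LinearIsometry.norm_map ι (avg fun x => (∏ i ∈ S, sg (x i)) • θ x)]
      congr 1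
      unfold avg
      rw [← LinearIsometry.coe_toLinearMap, map_smul, map_sum]
      congr 1
      refine Finset.sum_congr rfl fun x _ => ?_
      simp only [map_smul, ContinuousLinearMap.comp_id])
  have hrank : (Module.finrank ℝ (LinearMap.range
      ((ContinuousLinearMap.id ℝ X : X →L[ℝ] X) : X →ₗ[ℝ] X)) : ℝ) ≤ Module.finrank ℝ E := by
    have h2 : Module.finrank ℝ (LinearMap.range
      ((ContinuousLinearMap.id ℝ X : X →L[ℝ] X) : X →ₗ[ℝ] X)) ≤ Module.finrank ℝ X :=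
      Submodule.finrank_le _
    rw [finrank_dual E] at h2
    exact_mod_cast h2
  exact h1.trans (mul_le_mul_of_nonneg_left hrank hK.le)

end Vale.Agent.P111.TW
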