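import Vale.Agent.P111.TW.Kill
import Vale.Agent.P111.TW.Generic

/-!
Walsh systems: generic tuples for terms of large rank, and the explicit rate.
-/

set_option linter.unusedSectionVars false

namespace Vale.Agent.P111.TW

open Finset Vale.Agent.P111 Vale.Agent.P111.TK

/-- The sign as an element of the field with two elements. -/
def bit (u : ℤˣ) : ZMod 2 := if u = 1 then 0 else 1

theorem bit_mul (u v : ℤˣ) : bit (u * v) = bit u + bit v := by
  rcases Int.units_eq_one_or u with h | h <;> rcases Int.units_eq_one_or v with h' | h' <;>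
    subst h <;> subst h' <;> decide

theorem bit_one : bit 1 = 0 := rfl

theorem bit_prod {ι : Type*} (s : Finset ι) (f : ι → ℤˣ) :
    bit (∏ i ∈ s, f i) = ∑ i ∈ s, bit (f i) := by
  classical
  induction s using Finset.induction_on with
  | empty => simp [bit_one]
  | insert a s ha ih => rw [Finset.prod_insert ha, Finset.sum_insert ha, bit_mul, ih]

theorem bit_eq_zero {u : ℤˣ} (h : bit u = 0) : u = 1 := by
  rcases Int.units_eq_one_or u with h' | h'
  · exact h'
  · subst h'
    exact absurd h (by decide)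

section

variable {D M M' : ℕ}

theorem fibre_rk (Λ : Finset (Fin D → ℤˣ)) (g : Fin M' → Finset (Fin M))
    (b : Fin M' → Fin D → ℤˣ) :
    #((Fintype.piFinset fun _ : Fin M => Λ).filter fun J => JG J g = b) * #Λ ^ rk g ≤
      #Λ ^ M := by
  classical
  obtain ⟨κ, a, ha, hspan, hli⟩ := exists_linearIndependent' (ZMod 2) (rw' g)
  have hfin : Finite κ := Finite.of_injective a ha
  have hft : Fintype κ := Fintype.ofFinite κ
  have hcard : Fintype.card κ = rk g := by
    rw [rk, ← hspan, finrank_span_eq_card hli]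
  have h1 : #Λ ^ M = #(Fintype.piFinset fun _ : Fin M => Λ) := by
    rw [Fintype.card_piFinset_const]
  have h2 : #Λ ^ rk g = #(Fintype.piFinset fun _ : κ => Λ) := by
    rw [Fintype.card_piFinset, Finset.prod_const, Finset.card_univ, hcard]
  rw [h1, h2, ← Finset.card_product]
  refine Finset.card_le_card_of_injOn (fun p => Function.extend a p.2 p.1) ?_ ?_
  · rintro ⟨J, h⟩ hp
    simp only [Finset.coe_product, Set.mem_prod, Finset.mem_coe, Finset.mem_filter,
      Fintype.mem_piFinset] at hp ⊢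
    intro i
    by_cases hi : ∃ j, a j = i
    · obtain ⟨j, rfl⟩ := hi
      rw [ha.extend_apply]
      exact hp.2 j
    · rw [Function.extend_apply' _ _ _ hi]
      exact hp.1.1 i
  · rintro ⟨J₁, h₁⟩ hp₁ ⟨J₂, h₂⟩ hp₂ heq
    simp only [Finset.coe_product, Set.mem_prod, Finset.mem_coe, Finset.mem_filter] at hp₁ hp₂
    simp only at heq
    have hh : h₁ = h₂ := by
      funext j
      have := congrFun heq (a j)
      rwa [ha.extend_apply, ha.extend_apply] at this
    have hout : ∀ i, (¬ ∃ j, a j = i) → J₁ i = J₂ i := by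
      intro i hi
      have := congrFun heq i
      rwa [Function.extend_apply' _ _ _ hi, Function.extend_apply' _ _ _ hi] at this
    have hin : ∀ j, J₁ (a j) = J₂ (a j) := by
      intro j₀
      funext t
      -- the difference of the two tuples at `t`
      set e : Fin M → ZMod 2 := fun i => bit (J₁ i t * J₂ i t) with he
      have he0 : ∀ i, (¬ ∃ j, a j = i) → e i = 0 := by
        intro i hi
        simp only [he]
        rw [hout i hi, Int.units_mul_self, bit_one]
      have hsum : ∑ i, e i • rw' g i = 0 := by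
        funext k
        rw [Finset.sum_apply]
        have e1 : ∀ i, (e i • rw' g i) k = if i ∈ g k then e i else 0 := by
          intro i
          rw [Pi.smul_apply, rw', smul_eq_mul]
          split_ifs <;> simp
        rw [Finset.sum_congr rfl fun i _ => e1 i, ← Finset.sum_filter, Pi.zero_apply]
        have e2 : (Finset.univ.filter fun i => i ∈ g k) = g k := by
          ext i
          simp
        have e3 := congrFun (congrFun (hp₁.1.2.trans hp₂.1.2.symm) k) t
        simp only [JG, JT, Finset.prod_apply] at e3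
        rw [e2]
        simp only [he]
        rw [← bit_prod, Finset.prod_mul_distrib, e3, Int.units_mul_self, bit_one]
      have hsum2 : ∑ j, e (a j) • (rw' g ∘ a) j = 0 := by
        rw [← hsum]
        have e1 : ∑ i, e i • rw' g i = ∑ i ∈ Finset.univ.image a, e i • rw' g i := by
          symm
          apply Finset.sum_subset (Finset.subset_univ _)
          intro i _ hi
          rw [he0 i, zero_smul]
          rintro ⟨j, rfl⟩
          exact hi (Finset.mem_image_of_mem a (Finset.mem_univ j))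
        rw [e1, Finset.sum_image fun x _ y _ hxy => ha hxy]
        rfl
      have hz := (Fintype.linearIndependent_iff.mp hli) (fun j => e (a j)) hsum2 j₀
      have hz' := bit_eq_zero hz
      calc J₁ (a j₀) t = J₁ (a j₀) t * (J₂ (a j₀) t * J₂ (a j₀) t) := by
            rw [Int.units_mul_self, mul_one]
        _ = (J₁ (a j₀) t * J₂ (a j₀) t) * J₂ (a j₀) t := by rw [mul_assoc]
        _ = J₂ (a j₀) t := by rw [hz', one_mul]
    have hJ : J₁ = J₂ := by
      funext i
      by_cases hi : ∃ j, a j = i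
      · obtain ⟨j, rfl⟩ := hi
        exact hin j
      · exact hout i hi
    rw [hJ, hh]

/-- Generic tuples exist. -/
theorem generic_rk (M M' R : ℕ) (D : ℕ) (Λ : Finset (Fin D → ℤˣ))
    (B : Finset (Fin M' → Fin D → ℤˣ)) (hΛ : 2 * 2 ^ M ≤ #Λ)
    (hB : 2 * (2 ^ M) ^ M' * #B < #Λ ^ (R + 1)) :
    ∃ J : Fin M → Fin D → ℤˣ, (∀ i, J i ∈ Λ) ∧
      (∀ T : Finset (Fin M), T.Nonempty → JT J T ≠ 1) ∧
      ∀ g : Fin M' → Finset (Fin M), R < rk g → JG J g ∉ B := by
  classical
  by_contra hcon
  push Not at hcon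
  set N := #Λ with hN
  set Ω : Finset (Fin M → Fin D → ℤˣ) := Fintype.piFinset fun _ : Fin M => Λ with hΩ
  have hΩc : #Ω = N ^ M := by rw [hΩ, Fintype.card_piFinset_const]
  have hN0 : 0 < N := lt_of_lt_of_le (by positivity) hΛ
  have hsub : Ω ⊆ (((Finset.univ : Finset (Finset (Fin M))).filter fun T => T.Nonempty).biUnion
      fun T => Ω.filter fun J => JT J T = 1) ∪
      (((Finset.univ : Finset (Fin M' → Finset (Fin M))).filter fun g => R < rk g).biUnion
        fun g => B.biUnion fun b => Ω.filter fun J => JG J g = b) := by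
    intro J hJ
    rw [Finset.mem_union]
    by_cases h1 : ∀ T : Finset (Fin M), T.Nonempty → JT J T ≠ 1
    · right
      obtain ⟨g, hg, hgB⟩ := hcon J (Fintype.mem_piFinset.mp hJ) h1
      rw [Finset.mem_biUnion]
      refine ⟨g, Finset.mem_filter.mpr ⟨Finset.mem_univ _, hg⟩, ?_⟩
      rw [Finset.mem_biUnion]
      exact ⟨JG J g, hgB, Finset.mem_filter.mpr ⟨hJ, rfl⟩⟩
    · left
      push Not at h1
      obtain ⟨T, hT, hT1⟩ := h1
      rw [Finset.mem_biUnion]
      exact ⟨T, Finset.mem_filter.mpr ⟨Finset.mem_univ _, hT⟩, Finset.mem_filter.mpr ⟨hJ, hT1⟩⟩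
  have hc := (Finset.card_le_card hsub).trans (Finset.card_union_le _ _)
  have hc1 : #(((Finset.univ : Finset (Finset (Fin M))).filter fun T => T.Nonempty).biUnion
      fun T => Ω.filter fun J => JT J T = 1) * N ^ (R + 1) ≤ 2 ^ M * (N ^ M * N ^ R) := by
    calc _ ≤ (∑ T ∈ (Finset.univ : Finset (Finset (Fin M))).filter fun T => T.Nonempty,
          #(Ω.filter fun J => JT J T = 1)) * N ^ (R + 1) :=
          Nat.mul_le_mul_right _ Finset.card_biUnion_le
      _ = ∑ T ∈ (Finset.univ : Finset (Finset (Fin M))).filter fun T => T.Nonempty,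
          #(Ω.filter fun J => JT J T = 1) * N * N ^ R := by
          rw [Finset.sum_mul]
          exact Finset.sum_congr rfl fun T _ => by ring
      _ ≤ ∑ _T ∈ (Finset.univ : Finset (Finset (Fin M))).filter fun T => T.Nonempty,
          N ^ M * N ^ R := by
          refine Finset.sum_le_sum fun T hT => ?_
          exact Nat.mul_le_mul_right _ (fibre_one Λ (Finset.mem_filter.mp hT).2 1)
      _ ≤ ∑ _T : Finset (Fin M), N ^ M * N ^ R :=
          Finset.sum_le_sum_of_subset (Finset.filter_subset _ _)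
      _ = 2 ^ M * (N ^ M * N ^ R) := by
          rw [Finset.sum_const, Finset.card_univ, Fintype.card_finset, Fintype.card_fin,
            smul_eq_mul]
  have hfib : ∀ g : Fin M' → Finset (Fin M), R < rk g → ∀ b,
      #(Ω.filter fun J => JG J g = b) * N ^ (R + 1) ≤ N ^ M := by
    intro g hg b
    refine le_trans (Nat.mul_le_mul_left _ ?_) (fibre_rk Λ g b)
    exact Nat.pow_le_pow_right hN0 hg
  have hc2 : #(((Finset.univ : Finset (Fin M' → Finset (Fin M))).filter
      fun g => R < rk g).biUnion fun g => B.biUnion fun b => Ω.filter fun J => JG J g = b) *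
      N ^ (R + 1) ≤ (2 ^ M) ^ M' * (#B * N ^ M) := by
    calc _ ≤ (∑ g ∈ (Finset.univ : Finset (Fin M' → Finset (Fin M))).filter fun g => R < rk g,
          ∑ b ∈ B, #(Ω.filter fun J => JG J g = b)) * N ^ (R + 1) := by
          refine Nat.mul_le_mul_right _ (Finset.card_biUnion_le.trans ?_)
          exact Finset.sum_le_sum fun g _ => Finset.card_biUnion_le
      _ = ∑ g ∈ (Finset.univ : Finset (Fin M' → Finset (Fin M))).filter fun g => R < rk g,
          ∑ b ∈ B, #(Ω.filter fun J => JG J g = b) * N ^ (R + 1) := by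
          rw [Finset.sum_mul]
          exact Finset.sum_congr rfl fun g _ => by rw [Finset.sum_mul]
      _ ≤ ∑ _g ∈ (Finset.univ : Finset (Fin M' → Finset (Fin M))).filter fun g => R < rk g,
          ∑ _b ∈ B, N ^ M := by
          refine Finset.sum_le_sum fun g hg => Finset.sum_le_sum fun b _ => ?_
          exact hfib g (Finset.mem_filter.mp hg).2 b
      _ ≤ ∑ _g : Fin M' → Finset (Fin M), ∑ _b ∈ B, N ^ M :=
          Finset.sum_le_sum_of_subset (Finset.filter_subset _ _)
      _ = (2 ^ M) ^ M' * (#B * N ^ M) := by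
          rw [Finset.sum_const, Finset.sum_const, Finset.card_univ, Fintype.card_fun,
            Fintype.card_finset, Fintype.card_fin, Fintype.card_fin, smul_eq_mul, smul_eq_mul]
  have hc3 : N ^ M * N ^ (R + 1) ≤ 2 ^ M * (N ^ M * N ^ R) + (2 ^ M) ^ M' * (#B * N ^ M) := by
    rw [← hΩc]
    calc #Ω * N ^ (R + 1) ≤ _ := Nat.mul_le_mul_right _ hc
      _ ≤ _ := by
          rw [add_mul, hΩc]
          exact Nat.add_le_add hc1 hc2
  have hNM : 0 < N ^ M := by positivity
  have hc5 : N ^ (R + 1) ≤ 2 ^ M * N ^ R + (2 ^ M) ^ M' * #B := by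
    have : N ^ M * N ^ (R + 1) ≤ N ^ M * (2 ^ M * N ^ R + (2 ^ M) ^ M' * #B) := by
      calc _ ≤ _ := hc3
        _ = _ := by ring
    exact Nat.le_of_mul_le_mul_left this hNM
  have hc6 : 2 * 2 ^ M * N ^ R ≤ N ^ (R + 1) := by
    rw [pow_succ']
    exact Nat.mul_le_mul_right _ hΛ
  have h7 : 2 * (2 ^ M * N ^ R) = 2 * 2 ^ M * N ^ R := by ring
  have h8 : 2 * ((2 ^ M) ^ M' * #B) = 2 * (2 ^ M) ^ M' * #B := by ring
  omega

end

theorem killGen (M M' R : ℕ) : KillGen M M' R (Real.exp 6 * 2 ^ R) := by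
  obtain ⟨w, hw⟩ := exists_killer M M' R
  exact ⟨rk, w, hw, fun D Λ B h1 h2 => generic_rk M M' R D Λ B h1 h2⟩

/-- The explicit rate. -/
theorem rate (q r C ρ : ℝ) (hq : 2 ≤ q) (hr : 2 ≤ r) (hC : 1 ≤ C) (hρ : 1 ≤ ρ) :
    ∃ A a : ℕ, ∀ (R : ℕ) (X : Type*) [NormedAddCommGroup X] [NormedSpace ℝ X]
      (T : X →L[ℝ] X) (d : ℝ), 0 ≤ d → CountBd T d →
      CotypeWith q C X → CotypeWith r C (X →L[ℝ] ℝ) → ‖T‖ ≤ C →
      ∀ (D : ℕ) (θ : (Fin D → ℤˣ) → (X →L[ℝ] ℝ)), (∀ x, ‖θ x‖ ≤ 1) →
      ∀ Λ : Finset (Fin D → ℤˣ), (∀ b ∈ Λ, 1 / ρ ≤ ‖fc T θ b‖) → 2 ^ (A * 2 ^ (a * R)) ≤ #Λ →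
      (#Λ : ℝ) ^ R ≤ d :=
  rate_of ⟨Real.exp 6, Real.one_le_exp (by norm_num), fun M M' R => killGen M M' R⟩ q r C ρ
    hq hr hC hρ

end Vale.Agent.P111.TW
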