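import Vale.Agent.P111.TW.Generic
import Vale.Agent.P111.TW.Cnt

/-!
Iteration of the step: the number of large Fourier coefficients of `T^* θ` is subpolynomial in
the rank of `T`.
-/

namespace Vale.Agent.P111.TW

open Finset Vale.Agent.P111 Vale.Agent.P111.TK

/-- One step of the arithmetic. -/
theorem iter_arith {N N' N'' L : ℝ} {j : ℕ} (hL : 1 ≤ L) (hN : L ^ 2 ≤ N)
    (h1 : N ^ (j + 2) ≤ N' ^ 2) (h2 : N' ^ 2 ≤ L * N'') : N ^ (j + 1 + 2) ≤ N'' ^ 2 := by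
  have hL0 : 0 < L := by linarith
  have hL2 : 1 ≤ L ^ 2 := one_le_pow₀ hL
  have hN1 : 1 ≤ N := hL2.trans hN
  have hN0 : 0 < N := by linarith
  have h3 : (N ^ (j + 2)) ^ 2 ≤ (L * N'') ^ 2 := by
    have h4 : 0 ≤ N ^ (j + 2) := by positivity
    have h5 : N ^ (j + 2) ≤ L * N'' := h1.trans h2
    exact pow_le_pow_left₀ h4 h5 2
  have h6 : L ^ 2 * N ^ (j + 1 + 2) ≤ L ^ 2 * N'' ^ 2 := by
    calc L ^ 2 * N ^ (j + 1 + 2) ≤ N ^ (j + 1) * N ^ (j + 1 + 2) := by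
          have : L ^ 2 ≤ N ^ (j + 1) := by
            calc L ^ 2 ≤ N := hN
              _ = N ^ 1 := (pow_one N).symm
              _ ≤ N ^ (j + 1) := pow_le_pow_right₀ hN1 (by omega)
          gcongr
      _ = (N ^ (j + 2)) ^ 2 := by
          rw [← pow_add, ← pow_mul]
          congr 1
          ring
      _ ≤ (L * N'') ^ 2 := h3
      _ = L ^ 2 * N'' ^ 2 := by ring
  exact le_of_mul_le_mul_left h6 (by positivity)

universe u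

/-- The iterated step. -/
theorem iter (q r C ρ : ℝ) (hq : 2 ≤ q) (hr : 2 ≤ r) (hC : 1 ≤ C) (hρ : 1 ≤ ρ) (j : ℕ) :
    ∃ K : ℝ, 1 ≤ K ∧ ∀ (X : Type u) [NormedAddCommGroup X] [NormedSpace ℝ X]
      (T : X →L[ℝ] X), CotypeWith q C X → CotypeWith r C (X →L[ℝ] ℝ) → ‖T‖ ≤ C →
      ∀ (D : ℕ) (θ : (Fin D → ℤˣ) → (X →L[ℝ] ℝ)), (∀ x, ‖θ x‖ ≤ 1) →
      ∀ Λ : Finset (Fin D → ℤˣ), (∀ b ∈ Λ, 1 / ρ ≤ ‖fc T θ b‖) → K ≤ #Λ →
      ∃ (D' : ℕ) (θ' : (Fin D' → ℤˣ) → (X →L[ℝ] ℝ)), (∀ x, ‖θ' x‖ ≤ 1) ∧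
        (#Λ : ℝ) ^ (j + 2) ≤ (#(Finset.univ.filter fun b => 1 / K ≤ ‖fc T θ' b‖) : ℝ) ^ 2 := by
  induction j with
  | zero =>
    refine ⟨ρ, hρ, ?_⟩
    intro X _ _ T _ _ _ D θ hθ Λ hΛ _
    refine ⟨D, θ, hθ, ?_⟩
    have h1 : Λ ⊆ Finset.univ.filter fun b => 1 / ρ ≤ ‖fc T θ b‖ := fun b hb => by
      rw [Finset.mem_filter]
      exact ⟨Finset.mem_univ _, hΛ b hb⟩
    have h2 : (#Λ : ℝ) ≤ #(Finset.univ.filter fun b => 1 / ρ ≤ ‖fc T θ b‖) := by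
      exact_mod_cast Finset.card_le_card h1
    exact pow_le_pow_left₀ (Nat.cast_nonneg _) h2 2
  | succ j ih =>
    obtain ⟨K, hK, h⟩ := ih
    obtain ⟨L, hL, hstep⟩ := step q r C K hq hr hC hK
    refine ⟨max K (L ^ 2), hK.trans (le_max_left _ _), ?_⟩
    intro X _ _ T hX hX' hT D θ hθ Λ hΛ hcard
    have hKN : K ≤ #Λ := (le_max_left _ _).trans hcard
    have hLN : L ^ 2 ≤ #Λ := (le_max_right _ _).trans hcard
    obtain ⟨D', θ', hθ', h1⟩ := h X T hX hX' hT D θ hθ Λ hΛ hKN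
    have hLL : L ≤ L ^ 2 := by nlinarith
    have hN1 : (1:ℝ) ≤ #Λ := hK.trans hKN
    have hN' : (#Λ : ℝ) ≤ #(Finset.univ.filter fun b => 1 / K ≤ ‖fc T θ' b‖) := by
      have h3 : (#Λ : ℝ) ^ 2 ≤ (#(Finset.univ.filter fun b => 1 / K ≤ ‖fc T θ' b‖) : ℝ) ^ 2 :=
        (pow_le_pow_right₀ hN1 (by omega)).trans h1
      exact le_of_sq_le_sq h3 (Nat.cast_nonneg _)
    obtain ⟨D'', θ'', hθ'', h2⟩ := hstep X T hX hX' hT D' θ' hθ'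
      (Finset.univ.filter fun b => 1 / K ≤ ‖fc T θ' b‖) (fun b hb => (Finset.mem_filter.mp hb).2)
      ((hLL.trans hLN).trans hN')
    refine ⟨D'', θ'', hθ'', ?_⟩
    refine (iter_arith hL hLN h1 h2).trans ?_
    have h4 : (Finset.univ.filter fun b => 1 / L ≤ ‖fc T θ'' b‖) ⊆
        Finset.univ.filter fun b => 1 / max K (L ^ 2) ≤ ‖fc T θ'' b‖ := by
      intro b hb
      rw [Finset.mem_filter] at hb ⊢
      refine ⟨hb.1, le_trans ?_ hb.2⟩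
      have hL0 : 0 < L := by linarith
      exact one_div_le_one_div_of_le hL0 (hLL.trans (le_max_right _ _))
    have h5 : (#(Finset.univ.filter fun b => 1 / L ≤ ‖fc T θ'' b‖) : ℝ) ≤
        #(Finset.univ.filter fun b => 1 / max K (L ^ 2) ≤ ‖fc T θ'' b‖) := by
      exact_mod_cast Finset.card_le_card h4
    exact pow_le_pow_left₀ (Nat.cast_nonneg _) h5 2

theorem final_arith {N N' K C d : ℝ} {A : ℕ} (hK : 1 ≤ K) (hC : 1 ≤ C) (hd : 0 ≤ d)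
    (hN : 16 * K ^ 4 * C ^ 4 ≤ N) (hN' : 0 ≤ N')
    (h1 : N ^ (2 * A + 1 + 2) ≤ N' ^ 2) (h2 : N' * (1 / K / 2) ^ 2 ≤ d * C ^ 2) :
    N ^ A ≤ d := by
  have hK0 : 0 < K := by linarith
  have hC0 : 0 < C := by linarith
  have h3 : N' ≤ 4 * K ^ 2 * C ^ 2 * d := by
    have h4 : N' * (1 / K / 2) ^ 2 * (4 * K ^ 2) = N' := by
      field_simp
      ring
    calc N' = N' * (1 / K / 2) ^ 2 * (4 * K ^ 2) := h4.symm
      _ ≤ d * C ^ 2 * (4 * K ^ 2) := by gcongr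
      _ = _ := by ring
  have h16 : 1 ≤ 16 * K ^ 4 * C ^ 4 := by
    have h5 : 1 ≤ K ^ 4 := one_le_pow₀ hK
    have h6 : 1 ≤ C ^ 4 := one_le_pow₀ hC
    have h7 : 1 ≤ K ^ 4 * C ^ 4 := one_le_mul_of_one_le_of_one_le h5 h6
    linarith
  have hN1 : 1 ≤ N := h16.trans hN
  have h5 : N ^ (2 * A + 1 + 2) ≤ N * d ^ 2 := by
    calc N ^ (2 * A + 1 + 2) ≤ N' ^ 2 := h1
      _ ≤ (4 * K ^ 2 * C ^ 2 * d) ^ 2 := pow_le_pow_left₀ hN' h3 2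
      _ = 16 * K ^ 4 * C ^ 4 * d ^ 2 := by ring
      _ ≤ N * d ^ 2 := by gcongr
  have h6 : N * (N ^ A) ^ 2 ≤ N * d ^ 2 := by
    refine le_trans ?_ h5
    have h7 : N * (N ^ A) ^ 2 = N ^ (2 * A + 1) := by
      rw [← pow_mul, pow_succ]
      ring
    rw [h7]
    exact pow_le_pow_right₀ hN1 (by omega)
  have h8 : (N ^ A) ^ 2 ≤ d ^ 2 := le_of_mul_le_mul_left h6 (by linarith)
  exact le_of_sq_le_sq h8 hd

/-- Theorem W+: if `T^* θ` has `N` large Fourier coefficients then the rank of `T` is at least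
`N ^ A`. -/
theorem rank_ge (q r C ρ : ℝ) (hq : 2 ≤ q) (hr : 2 ≤ r) (hC : 1 ≤ C) (hρ : 1 ≤ ρ) (A : ℕ) :
    ∃ N₀ : ℝ, 1 ≤ N₀ ∧ ∀ (X : Type u) [NormedAddCommGroup X] [NormedSpace ℝ X]
      (T : X →L[ℝ] X), CotypeWith q C X → CotypeWith r C (X →L[ℝ] ℝ) → ‖T‖ ≤ C →
      FiniteDimensional ℝ (LinearMap.range (T : X →ₗ[ℝ] X)) →
      ∀ (D : ℕ) (θ : (Fin D → ℤˣ) → (X →L[ℝ] ℝ)), (∀ x, ‖θ x‖ ≤ 1) →
      ∀ Λ : Finset (Fin D → ℤˣ), (∀ b ∈ Λ, 1 / ρ ≤ ‖fc T θ b‖) → N₀ ≤ #Λ →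
      (#Λ : ℝ) ^ A ≤ Module.finrank ℝ (LinearMap.range (T : X →ₗ[ℝ] X)) := by
  obtain ⟨K, hK, h⟩ := iter q r C ρ hq hr hC hρ (2 * A + 1)
  refine ⟨max K (16 * K ^ 4 * C ^ 4), hK.trans (le_max_left _ _), ?_⟩
  intro X _ _ T hX hX' hT hfin D θ hθ Λ hΛ hcard
  obtain ⟨D', θ', hθ', h1⟩ := h X T hX hX' hT D θ hθ Λ hΛ ((le_max_left _ _).trans hcard)
  have hK0 : 0 < K := by linarith
  have h2 := count_fc T hT (one_div_pos.mpr hK0) θ' hθ'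
  exact final_arith hK hC (Nat.cast_nonneg _) ((le_max_right _ _).trans hcard)
    (Nat.cast_nonneg _) h1 h2

end Vale.Agent.P111.TW
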