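import Vale.Agent.P111.TW.Rate

/-!
Walsh systems: removing the terms of small rank.
-/

set_option linter.unusedSectionVars false

namespace Vale.Agent.P111.TW

open Finset Vale.Agent.P111 Vale.Agent.P111.TK

section Comb

/-- The sum of the values of the polynomial with coefficients `c`. -/
noncomputable def ev (R : ℕ) (c : ℕ → ℝ) (z : ℝ) : ℝ := ∑ l ∈ range (R + 1), c l * z ^ l

theorem ev_succ {R : ℕ} {c : ℕ → ℝ} (hc : c (R + 1) = 0) (t s z : ℝ) :
    ev (R + 1) (fun l => ((if l = 0 then 0 else c (l - 1)) - t * c l) * s) z =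
      (z - t) * s * ev R c z := by
  unfold ev
  have h1 : ∀ l, ((if l = 0 then 0 else c (l - 1)) - t * c l) * s * z ^ l =
      (if l = 0 then 0 else c (l - 1)) * z ^ l * s - t * s * (c l * z ^ l) := fun l => by ring
  simp only [h1]
  rw [Finset.sum_sub_distrib, Finset.sum_range_succ' (fun l => (if l = 0 then 0 else c (l - 1)) *
    z ^ l * s), ← Finset.mul_sum, Finset.sum_range_succ (fun l => c l * z ^ l) (R + 1), hc]
  simp only [Nat.add_eq_zero_iff, one_ne_zero, and_false, if_false, Nat.add_sub_cancel, if_true]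
  have h2 : ∀ l, c l * z ^ (l + 1) * s = z * s * (c l * z ^ l) := fun l => by ring
  simp only [h2]
  rw [← Finset.mul_sum]
  ring

theorem exists_comb (R : ℕ) : ∃ c : ℕ → ℝ, (∀ l, R < l → c l = 0) ∧
    ∑ l ∈ range (R + 1), |c l| ≤ 2 ^ R * Real.exp (6 * (1 - (1 / 2) ^ R)) ∧
    ev R c (1 / 2) = 1 ∧ ∀ k, 2 ≤ k → k ≤ R → ev R c ((1 / 2) ^ k) = 0 := by
  induction R with
  | zero =>
    refine ⟨fun l => if l = 0 then 1 else 0, ?_, ?_, ?_, ?_⟩
    · intro l hl
      simp only
      rw [if_neg (by omega)]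
    · simp
    · simp [ev]
    · intro k h1 h2
      omega
  | succ R ih =>
    obtain ⟨c, hc0, hc1, hc2, hc3⟩ := ih
    rcases Nat.eq_zero_or_pos R with hR | hR
    · subst hR
      refine ⟨c, fun l hl => hc0 l (by omega), ?_, ?_, ?_⟩
      · rw [Finset.sum_range_succ, hc0 1 (by omega), abs_zero, add_zero]
        refine hc1.trans ?_
        have h1 : Real.exp (6 * (1 - (1 / 2) ^ 0)) = 1 := by norm_num
        have h2 : 1 ≤ Real.exp (6 * (1 - (1 / 2) ^ (0 + 1))) := Real.one_le_exp (by norm_num)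
        rw [h1]
        calc (2:ℝ) ^ 0 * 1 = 1 := by norm_num
          _ ≤ 2 * Real.exp (6 * (1 - (1 / 2) ^ (0 + 1))) := by linarith
          _ = _ := by norm_num
      · rw [ev, Finset.sum_range_succ, hc0 1 (by omega), zero_mul, add_zero]
        exact hc2
      · intro k h1 h2
        omega
    -- the new zero
    set t : ℝ := (1 / 2) ^ (R + 1) with ht
    have ht0 : 0 < t := by positivity
    have ht4 : t ≤ 1 / 4 := by
      calc t ≤ (1 / 2) ^ 2 := pow_le_pow_of_le_one (by norm_num) (by norm_num) (by omega)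
        _ = 1 / 4 := by norm_num
    set s : ℝ := (1 / 2 - t)⁻¹ with hs
    have hs0 : 0 < 1 / 2 - t := by linarith
    have hs1 : 0 < s := inv_pos.mpr hs0
    have hst : (1 / 2 - t) * s = 1 := mul_inv_cancel₀ hs0.ne'
    refine ⟨fun l => ((if l = 0 then 0 else c (l - 1)) - t * c l) * s, ?_, ?_, ?_, ?_⟩
    · intro l hl
      simp only
      rw [if_neg (by omega), hc0 (l - 1) (by omega), hc0 l (by omega)]
      ring
    · have h1 : ∑ l ∈ range (R + 1 + 1), |((if l = 0 then 0 else c (l - 1)) - t * c l) * s| ≤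
          (1 + t) * s * ∑ l ∈ range (R + 1), |c l| := by
        calc ∑ l ∈ range (R + 1 + 1), |((if l = 0 then 0 else c (l - 1)) - t * c l) * s|
            ≤ ∑ l ∈ range (R + 1 + 1), ((if l = 0 then 0 else |c (l - 1)|) * s +
              t * s * |c l|) := by
              refine Finset.sum_le_sum fun l _ => ?_
              rw [abs_mul, abs_of_pos hs1]
              have e1 : |(if l = 0 then 0 else c (l - 1)) - t * c l| ≤
                  (if l = 0 then 0 else |c (l - 1)|) + t * |c l| := by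
                refine (abs_sub _ _).trans ?_
                rw [abs_mul, abs_of_pos ht0]
                split_ifs <;> simp
              calc _ ≤ ((if l = 0 then 0 else |c (l - 1)|) + t * |c l|) * s :=
                    mul_le_mul_of_nonneg_right e1 hs1.le
                _ = _ := by ring
          _ = (1 + t) * s * ∑ l ∈ range (R + 1), |c l| := by
              rw [Finset.sum_add_distrib, Finset.sum_range_succ'
                (fun l => (if l = 0 then 0 else |c (l - 1)|) * s), ← Finset.mul_sum,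
                Finset.sum_range_succ (fun l => |c l|) (R + 1), hc0 (R + 1) (by omega)]
              simp only [Nat.add_eq_zero_iff, one_ne_zero, and_false, if_false,
                Nat.add_sub_cancel, if_true]
              rw [← Finset.sum_mul, abs_zero]
              ring
      have h2 : (1 + t) * s ≤ 2 * Real.exp (6 * t) := by
        have e1 : (1 + t) * s ≤ 2 * (1 + 6 * t) := by
          rw [hs, ← div_eq_mul_inv, div_le_iff₀ hs0]
          nlinarith
        have e2 := Real.add_one_le_exp (6 * t)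
        linarith
      have h0 : 0 ≤ ∑ l ∈ range (R + 1), |c l| := Finset.sum_nonneg fun l _ => abs_nonneg _
      refine h1.trans ((mul_le_mul h2 hc1 h0 (by positivity)).trans (le_of_eq ?_))
      have e3 : 6 * (1 - (1 / 2 : ℝ) ^ (R + 1)) = 6 * t + 6 * (1 - (1 / 2) ^ R) := by
        rw [ht, pow_succ]
        ring
      rw [e3, Real.exp_add, pow_succ]
      ring
    · rw [ev_succ (hc0 (R + 1) (by omega)), hc2, hst, mul_one]
    · intro k h1 h2
      rw [ev_succ (hc0 (R + 1) (by omega))]
      rcases Nat.lt_or_ge k (R + 1) with h3 | h3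
      · rw [hc3 k h1 (by omega), mul_zero]
      · have : k = R + 1 := by omega
        rw [this, ← ht, sub_self]
        ring

end Comb

section Rank

variable {M M' : ℕ}

/-- The rows of `g`, as vectors over the field with two elements. -/
def rw' (g : Fin M' → Finset (Fin M)) (i : Fin M) : Fin M' → ZMod 2 :=
  fun k => if i ∈ g k then 1 else 0

/-- The rank of `g` over the field with two elements. -/
noncomputable def rk (g : Fin M' → Finset (Fin M)) : ℕ :=
  Module.finrank (ZMod 2) (Submodule.span (ZMod 2) (Set.range (rw' g)))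

/-- The sign matrix given by `c` and `y`. -/
def mat (c : Fin M → ZMod 2) (y : Fin M' → ℤˣ) : Fin M → Fin M' → ℤˣ :=
  fun i k => if c i = 1 then y k else 1

theorem lin_apply (g : Fin M' → Finset (Fin M)) (c : Fin M → ZMod 2) (k : Fin M') :
    Fintype.linearCombination (ZMod 2) (rw' g) c k =
      ((#((g k).filter fun i => c i = 1) : ℕ) : ZMod 2) := by
  rw [Fintype.linearCombination_apply, Finset.sum_apply]
  have h1 : ∀ i, (c i • rw' g i) k = if i ∈ (g k).filter fun i => c i = 1 then 1 else 0 := by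
    intro i
    rw [Pi.smul_apply, rw', smul_eq_mul]
    simp only [Finset.mem_filter]
    have h2 : c i = 0 ∨ c i = 1 := by
      generalize c i = z
      revert z
      decide
    rcases h2 with h2 | h2 <;> by_cases h3 : i ∈ g k <;> simp [h2, h3]
  rw [Finset.sum_congr rfl fun i _ => h1 i, ← Finset.sum_filter, Finset.sum_const,
    nsmul_eq_mul, mul_one]
  congr 2
  ext i
  simp

theorem avg_mat_y (g : Fin M' → Finset (Fin M)) (c : Fin M → ZMod 2) :
    (avg fun y : Fin M' → ℤˣ => ∏ k, ∏ i ∈ g k, sg (mat c y i k)) =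
      if Fintype.linearCombination (ZMod 2) (rw' g) c = 0 then 1 else 0 := by
  have h1 : ∀ y : Fin M' → ℤˣ, ∏ k, ∏ i ∈ g k, sg (mat c y i k) =
      walsh (Finset.univ.filter fun k => Odd #((g k).filter fun i => c i = 1)) y := by
    intro y
    rw [walsh, Finset.prod_filter]
    refine Finset.prod_congr rfl fun k _ => ?_
    rw [← sg_pow, ← Finset.prod_const, Finset.prod_filter]
    refine Finset.prod_congr rfl fun i _ => ?_
    rw [mat]
    split_ifs
    · rfl
    · exact sg_one
  rw [avg_congr h1, avg_walsh]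
  congr 1
  rw [Finset.filter_eq_empty_iff]
  refine propext ⟨fun h => ?_, fun h k _ => ?_⟩
  · funext k
    rw [lin_apply]
    have := h (Finset.mem_univ k)
    rw [Nat.not_odd_iff_even] at this
    rw [Pi.zero_apply, ZMod.natCast_eq_zero_iff_even]
    exact this
  · rw [Nat.not_odd_iff_even, ← ZMod.natCast_eq_zero_iff_even, ← lin_apply, h, Pi.zero_apply]

theorem avg_mat (g : Fin M' → Finset (Fin M)) :
    (avg fun p : (Fin M → ZMod 2) × (Fin M' → ℤˣ) =>
      ∏ k, ∏ i ∈ g k, sg (mat p.1 p.2 i k)) = (1 / 2) ^ rk g := by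
  classical
  rw [avg_prod]
  simp only [avg_mat_y]
  set φ := Fintype.linearCombination (ZMod 2) (rw' g) with hφ
  have h1 : (avg fun c : Fin M → ZMod 2 => if φ c = 0 then (1:ℝ) else 0) =
      (2:ℝ)⁻¹ ^ M * (Fintype.card (LinearMap.ker φ)) := by
    rw [avg, Finset.sum_boole, smul_eq_mul]
    congr 1
    · rw [Fintype.card_fun, ZMod.card, Fintype.card_fin]
      push_cast
      rw [inv_pow]
    · congr 1
      rw [Fintype.card_subtype]
      congr 1
      ext c
      simp
  have h2 : Fintype.card (LinearMap.ker φ) = 2 ^ Module.finrank (ZMod 2) (LinearMap.ker φ) := by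
    rw [Module.card_eq_pow_finrank (K := ZMod 2), ZMod.card]
  have h3 : Module.finrank (ZMod 2) (LinearMap.range φ) +
      Module.finrank (ZMod 2) (LinearMap.ker φ) = M := by
    rw [LinearMap.finrank_range_add_finrank_ker, Module.finrank_fin_fun]
  have h4 : Module.finrank (ZMod 2) (LinearMap.range φ) = rk g := by
    rw [rk, hφ, Fintype.range_linearCombination]
  rw [h1, h2, ← h4]
  push_cast
  have h5 : (2:ℝ)⁻¹ ^ M = (2:ℝ)⁻¹ ^ Module.finrank (ZMod 2) (LinearMap.range φ) *
      (2:ℝ)⁻¹ ^ Module.finrank (ZMod 2) (LinearMap.ker φ) := by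
    rw [← pow_add, h3]
  rw [h5, mul_assoc, ← mul_pow, inv_mul_cancel₀ (by norm_num), one_pow, mul_one, one_div]

/-- The product of several sign matrices. -/
def Mat {l : ℕ} (ω : Fin l → (Fin M → ZMod 2) × (Fin M' → ℤˣ)) : Fin M → Fin M' → ℤˣ :=
  fun i k => ∏ j, mat (ω j).1 (ω j).2 i k

theorem avg_Mat (l : ℕ) (g : Fin M' → Finset (Fin M)) :
    (avg fun ω : Fin l → (Fin M → ZMod 2) × (Fin M' → ℤˣ) =>
      ∏ k, ∏ i ∈ g k, sg (Mat ω i k)) = ((1 / 2) ^ rk g) ^ l := by
  have h1 : ∀ ω : Fin l → (Fin M → ZMod 2) × (Fin M' → ℤˣ),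
      ∏ k, ∏ i ∈ g k, sg (Mat ω i k) =
      ∏ j, (fun (_ : Fin l) (p : (Fin M → ZMod 2) × (Fin M' → ℤˣ)) =>
        ∏ k, ∏ i ∈ g k, sg (mat p.1 p.2 i k)) j (ω j) := by
    intro ω
    simp only [Mat, H1.sg_prod]
    rw [Finset.prod_comm]
    refine Finset.prod_congr rfl fun k _ => ?_
    rw [Finset.prod_comm]
  rw [avg_congr h1, avg_pi_prod (fun (_ : Fin l) (p : (Fin M → ZMod 2) × (Fin M' → ℤˣ)) =>
        ∏ k, ∏ i ∈ g k, sg (mat p.1 p.2 i k))]
  rw [Finset.prod_congr rfl fun _ _ => avg_mat g, Finset.prod_const, Finset.card_univ,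
    Fintype.card_fin]

theorem rk_bic {T : Finset (Fin M)} {U : Finset (Fin M')} (hT : T.Nonempty) (hU : U.Nonempty) :
    rk (bic T U) = 1 := by
  classical
  set v : Fin M' → ZMod 2 := fun k => if k ∈ U then 1 else 0 with hv
  have hv0 : v ≠ 0 := by
    obtain ⟨k, hk⟩ := hU
    intro h
    have := congrFun h k
    simp [hv, hk] at this
  have hrow : ∀ i, rw' (bic T U) i = if i ∈ T then v else 0 := by
    intro i
    funext k
    by_cases hk : k ∈ U
    · by_cases hi : i ∈ T <;> simp [rw', bic_pos hk, hi, hv, hk]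
    · by_cases hi : i ∈ T <;> simp [rw', bic_neg hk, hi, hv, hk]
  have hspan : Submodule.span (ZMod 2) (Set.range (rw' (bic T U))) =
      Submodule.span (ZMod 2) {v} := by
    apply le_antisymm
    · rw [Submodule.span_le]
      rintro _ ⟨i, rfl⟩
      rw [hrow]
      split_ifs
      · exact Submodule.mem_span_singleton_self v
      · exact Submodule.zero_mem _
    · rw [Submodule.span_le, Set.singleton_subset_iff]
      obtain ⟨i, hi⟩ := hT
      refine Submodule.subset_span ⟨i, ?_⟩
      rw [hrow, if_pos hi]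
  rw [rk, hspan, finrank_span_singleton hv0]

theorem bic_of_rk {g : Fin M' → Finset (Fin M)} (h : rk g ≤ 1) : ∃ T U, g = bic T U := by
  classical
  rw [rk, finrank_le_one_iff] at h
  obtain ⟨v, hv⟩ := h
  choose c hc using fun i => hv ⟨rw' g i, Submodule.subset_span ⟨i, rfl⟩⟩
  refine ⟨Finset.univ.filter fun i => c i = 1, Finset.univ.filter fun k =>
    (v : Fin M' → ZMod 2) k = 1, ?_⟩
  funext k
  have h1 : ∀ i, i ∈ g k ↔ (c i * (v : Fin M' → ZMod 2) k = 1) := by
    intro i
    have h2 := congrArg (fun z : Submodule.span (ZMod 2) (Set.range (rw' g)) =>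
      (z : Fin M' → ZMod 2) k) (hc i)
    simp only [Submodule.coe_smul, Pi.smul_apply, smul_eq_mul, rw'] at h2
    rw [h2]
    by_cases h3 : i ∈ g k <;> simp [h3]
  have h01 : ∀ a b : ZMod 2, a * b = 1 ↔ a = 1 ∧ b = 1 := by decide
  by_cases hk : (v : Fin M' → ZMod 2) k = 1
  · rw [bic_pos (by simp [hk])]
    ext i
    rw [h1, h01]
    simp [hk]
  · rw [bic_neg (by simp [hk])]
    ext i
    rw [h1, h01]
    simp [hk]

/-- The multiplier. -/
noncomputable def wt (R : ℕ) (c : ℕ → ℝ) (S : Fin M → Fin M' → ℤˣ) : ℝ := by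
  classical
  exact ∑ l ∈ range (R + 1), c l * avg fun ω : Fin l → (Fin M → ZMod 2) × (Fin M' → ℤˣ) =>
    if Mat ω = S then (1:ℝ) else 0

theorem sum_wt (R : ℕ) (c : ℕ → ℝ) (F : (Fin M → Fin M' → ℤˣ) → ℝ) :
    ∑ S, wt R c S * F S = ∑ l ∈ range (R + 1), c l *
      avg fun ω : Fin l → (Fin M → ZMod 2) × (Fin M' → ℤˣ) => F (Mat ω) := by
  classical
  unfold wt
  simp only [Finset.sum_mul]
  rw [Finset.sum_comm]
  refine Finset.sum_congr rfl fun l _ => ?_
  have h1 : ∀ S : Fin M → Fin M' → ℤˣ,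
      c l * (avg fun ω : Fin l → (Fin M → ZMod 2) × (Fin M' → ℤˣ) =>
        if Mat ω = S then (1:ℝ) else 0) * F S =
      c l * avg fun ω : Fin l → (Fin M → ZMod 2) × (Fin M' → ℤˣ) =>
        if Mat ω = S then F S else 0 := by
    intro S
    rw [mul_assoc, ← avg_mul_right]
    congr 1
    refine avg_congr fun ω => ?_
    split_ifs <;> ring
  rw [Finset.sum_congr rfl fun S _ => h1 S, ← Finset.mul_sum, ← avg_sum]
  congr 1
  refine avg_congr fun ω => ?_
  simp

theorem sum_abs_wt (R : ℕ) (c : ℕ → ℝ) :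
    ∑ S : Fin M → Fin M' → ℤˣ, |wt R c S| ≤ ∑ l ∈ range (R + 1), |c l| := by
  classical
  have h1 : ∀ S : Fin M → Fin M' → ℤˣ, |wt R c S| ≤ wt R (fun l => |c l|) S := by
    intro S
    unfold wt
    refine (Finset.abs_sum_le_sum_abs _ _).trans (Finset.sum_le_sum fun l _ => ?_)
    rw [abs_mul]
    refine mul_le_mul_of_nonneg_left (le_of_eq (abs_of_nonneg ?_)) (abs_nonneg _)
    exact avg_nonneg fun ω => by split_ifs <;> norm_num
  refine (Finset.sum_le_sum fun S _ => h1 S).trans (le_of_eq ?_)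
  have h2 := sum_wt (M := M) (M' := M') R (fun l => |c l|) (fun _ => 1)
  simp only [mul_one] at h2
  rw [h2]
  refine Finset.sum_congr rfl fun l _ => ?_
  have h3 : (avg fun _ : Fin l → (Fin M → ZMod 2) × (Fin M' → ℤˣ) => (1:ℝ)) = 1 := avg_const _
  rw [h3, mul_one]

theorem exists_killer (M M' R : ℕ) : ∃ w : (Fin M → Fin M' → ℤˣ) → ℝ,
    Killer M M' R (Real.exp 6 * 2 ^ R) rk w := by
  obtain ⟨c, hc0, hc1, hc2, hc3⟩ := exists_comb R
  have hhat : ∀ g : Fin M' → Finset (Fin M), ∑ S, wt R c S * ∏ k, ∏ i ∈ g k, sg (S i k) =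
      ev R c ((1 / 2) ^ rk g) := by
    intro g
    rw [sum_wt R c (fun S => ∏ k, ∏ i ∈ g k, sg (S i k)), ev]
    exact Finset.sum_congr rfl fun l _ => by rw [avg_Mat]
  refine ⟨wt R c, ?_, fun T U hT hU => rk_bic hT hU, fun g hg => bic_of_rk hg, ?_, ?_⟩
  · refine (sum_abs_wt R c).trans (hc1.trans ?_)
    rw [mul_comm]
    refine mul_le_mul_of_nonneg_right (Real.exp_le_exp.mpr ?_) (by positivity)
    have : (0:ℝ) ≤ (1 / 2) ^ R := by positivity
    linarith
  · intro g hg
    rw [hhat, hg, pow_one, hc2]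
  · intro g hg hgR
    rw [hhat]
    exact hc3 _ hg hgR

end Rank

end Vale.Agent.P111.TW
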