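import Vale.Agent.P111.SY.Core

/-! The core estimate with polynomial bounds for the numbers of variables. -/

namespace Vale.Agent.P111.TW

open Finset Vale.Agent.P111 Vale.Agent.P111.TI Vale.Agent.P111.SY

/-- The vector valued core for given numbers of variables. -/
theorem vcore_of (q r C : ℝ) (hq : 2 ≤ q) (hr : 2 ≤ r) (hC : 1 ≤ C) (n : ℕ) (hn1 : 1 ≤ n)
    (hn : 48 * C ^ 2 * ((42024 * C) ^ r + 2) ^ 2 * (n:ℝ) ^ (4 * r) < (2:ℝ) ^ ((n:ℝ) / q))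
    (M : ℕ) (hM : M = ⌈((42024 * C) * (n:ℝ) ^ 2) ^ r⌉₊)
    (κ : Finset (Fin M) → Finset (Fin (2 ^ n)) → ℝ) (c : Finset (Fin M) → ℝ) :
    ¬ VHyp κ c (C * (M : ℝ) ^ (1 - 1 / r))
        (C * (M : ℝ) ^ (1 - 1 / r) * (C * ((2 ^ n : ℕ) : ℝ) ^ (1 - 1 / q)))
        (C * (M : ℝ) ^ (1 - 1 / r) * (C * ((2 ^ n : ℕ) : ℝ) ^ (1 - 1 / q))) := by
  have hq0 : 0 < q := by linarith
  have hr0 : 0 < r := by linarith
  have hC0 : 0 < C := by linarith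
  set K₀ : ℝ := 42024 * C with hK₀
  have hK₀1 : 1 ≤ K₀ := by linarith
  set K₁ : ℝ := K₀ ^ r + 2 with hK₁
  have hn1' : (1:ℝ) ≤ n := by exact_mod_cast hn1
  have hn0 : (0:ℝ) < n := by linarith
  have hbase : 1 ≤ K₀ * (n:ℝ) ^ 2 := one_le_mul_of_one_le_of_one_le hK₀1 (one_le_pow₀ hn1')
  have hMlow : (K₀ * (n:ℝ) ^ 2) ^ r ≤ M := by rw [hM]; exact Nat.le_ceil _
  have hM1 : (1:ℝ) ≤ M := (Real.one_le_rpow hbase hr0.le).trans hMlow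
  have hM0 : (0:ℝ) < M := by linarith
  have hMup : (M:ℝ) ≤ K₁ * (n:ℝ) ^ (2 * r) := by
    have h1 : (M:ℝ) < (K₀ * (n:ℝ) ^ 2) ^ r + 1 := by
      rw [hM]; exact Nat.ceil_lt_add_one (by positivity)
    have h2 : (K₀ * (n:ℝ) ^ 2) ^ r = K₀ ^ r * (n:ℝ) ^ (2 * r) := by
      rw [Real.mul_rpow (by positivity) (by positivity), ← Real.rpow_natCast,
        ← Real.rpow_mul hn0.le]
      norm_num
    have h3 : 1 ≤ (n:ℝ) ^ (2 * r) := Real.one_le_rpow hn1' (by positivity)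
    rw [h2] at h1
    rw [hK₁, add_mul]
    linarith
  intro h
  set b₁ : ℝ := C * (M : ℝ) ^ (1 - 1 / r) with hb₁
  set b₂ : ℝ := C * ((2 ^ n : ℕ) : ℝ) ^ (1 - 1 / q) with hb₂
  have hb₁0 : 0 ≤ b₁ := by positivity
  have hb₂0 : 0 ≤ b₂ := by positivity
  have hnum := h.numerical hn1
  rw [Fintype.card_fin] at hnum
  -- first term
  have hfirst : 103 * n * (51 * n * b₁) ≤ M / 8 := by
    have e2 : K₀ * (n:ℝ) ^ 2 ≤ (M:ℝ) ^ (1 / r) := by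
      calc K₀ * (n:ℝ) ^ 2 = ((K₀ * (n:ℝ) ^ 2) ^ r) ^ (1 / r) := by
            rw [← Real.rpow_mul (by positivity), mul_one_div_cancel hr0.ne', Real.rpow_one]
        _ ≤ _ := Real.rpow_le_rpow (by positivity) hMlow (by positivity)
    have e3 : (M:ℝ) ^ (1 - 1 / r) * (M:ℝ) ^ (1 / r) = M := by
      rw [← Real.rpow_add hM0]
      simp
    calc 103 * n * (51 * n * b₁) = (M : ℝ) ^ (1 - 1 / r) * (K₀ * (n:ℝ) ^ 2) / 8 := by
          rw [hb₁, hK₀]; ring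
      _ ≤ (M : ℝ) ^ (1 - 1 / r) * (M:ℝ) ^ (1 / r) / 8 := by gcongr
      _ = M / 8 := by rw [e3]
  -- second term
  have hb₁M : b₁ ≤ C * M := by
    rw [hb₁]
    refine mul_le_mul_of_nonneg_left ?_ hC0.le
    calc (M : ℝ) ^ (1 - 1 / r) ≤ (M : ℝ) ^ (1:ℝ) :=
          Real.rpow_le_rpow_of_exponent_le hM1 (by
            have : 0 < 1 / r := by positivity
            linarith)
      _ = M := Real.rpow_one _
  have e6 : b₂ = C * (2:ℝ) ^ ((n:ℝ) - n / q) := by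
    rw [hb₂]
    push_cast
    rw [← Real.rpow_natCast, ← Real.rpow_mul (by norm_num)]
    congr 2
    ring
  have e7 : (2:ℝ) ^ n = (2:ℝ) ^ ((n:ℝ) - n / q) * (2:ℝ) ^ ((n:ℝ) / q) := by
    rw [← Real.rpow_add (by norm_num), sub_add_cancel, Real.rpow_natCast]
  have hX0 : 0 < (2:ℝ) ^ ((n:ℝ) - n / q) := by positivity
  have hY0 : 0 < (2:ℝ) ^ ((n:ℝ) / q) := by positivity
  have hratio : b₂ / 2 ^ n = C / (2:ℝ) ^ ((n:ℝ) / q) := by
    rw [e6, e7]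
    field_simp
  have hsecond : (2 * (M:ℝ) + 1) * (M * ((b₁ * b₂ + b₁ * b₂) / 2 ^ n)) ≤
      6 * C ^ 2 * M ^ 3 / (2:ℝ) ^ ((n:ℝ) / q) := by
    have e8 : (b₁ * b₂ + b₁ * b₂) / 2 ^ n = 2 * b₁ * (C / (2:ℝ) ^ ((n:ℝ) / q)) := by
      rw [← hratio]; ring
    rw [e8]
    have e9 : 0 ≤ C / (2:ℝ) ^ ((n:ℝ) / q) := by positivity
    calc (2 * (M:ℝ) + 1) * (M * (2 * b₁ * (C / (2:ℝ) ^ ((n:ℝ) / q))))
        ≤ (3 * M) * (M * (2 * (C * M) * (C / (2:ℝ) ^ ((n:ℝ) / q)))) := by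
          have : 2 * (M:ℝ) + 1 ≤ 3 * M := by linarith
          gcongr
      _ = _ := by ring
  have hsmall : 6 * C ^ 2 * M ^ 3 / (2:ℝ) ^ ((n:ℝ) / q) < M / 8 := by
    rw [div_lt_iff₀ hY0]
    have e10 : (M:ℝ) ^ 2 ≤ K₁ ^ 2 * (n:ℝ) ^ (4 * r) := by
      calc (M:ℝ) ^ 2 ≤ (K₁ * (n:ℝ) ^ (2 * r)) ^ 2 := by gcongr
        _ = K₁ ^ 2 * (n:ℝ) ^ (4 * r) := by
            rw [mul_pow, ← Real.rpow_natCast ((n:ℝ) ^ (2 * r)) 2, ← Real.rpow_mul hn0.le]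
            congr 2
            push_cast
            ring
    have e11 : 48 * C ^ 2 * (M:ℝ) ^ 2 < (2:ℝ) ^ ((n:ℝ) / q) := by
      calc 48 * C ^ 2 * (M:ℝ) ^ 2 ≤ 48 * C ^ 2 * (K₁ ^ 2 * (n:ℝ) ^ (4 * r)) := by gcongr
        _ = 48 * C ^ 2 * K₁ ^ 2 * (n:ℝ) ^ (4 * r) := by ring
        _ < _ := hn
    calc 6 * C ^ 2 * (M:ℝ) ^ 3 = (48 * C ^ 2 * (M:ℝ) ^ 2) * (M / 8) := by ring
      _ < (2:ℝ) ^ ((n:ℝ) / q) * (M / 8) := mul_lt_mul_of_pos_right e11 (by positivity)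
      _ = M / 8 * (2:ℝ) ^ ((n:ℝ) / q) := mul_comm _ _
  linarith

/-- The core, with polynomial bounds. -/
theorem vcore_quant (q r : ℝ) (hq : 2 ≤ q) (hr : 2 ≤ r) : ∃ a : ℕ, 1 ≤ a ∧ ∀ C : ℝ, 1 ≤ C →
    ∃ M M' : ℕ, M ≠ 0 ∧ M' ≠ 0 ∧ ((M * M' : ℕ) : ℝ) ≤ (a * C) ^ a ∧
      ∀ (κ : Finset (Fin M) → Finset (Fin M') → ℝ) (c : Finset (Fin M) → ℝ),
      ¬ VHyp κ c (C * (M : ℝ) ^ (1 - 1 / r))
        (C * (M : ℝ) ^ (1 - 1 / r) * (C * (M' : ℝ) ^ (1 - 1 / q)))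
        (C * (M : ℝ) ^ (1 - 1 / r) * (C * (M' : ℝ) ^ (1 - 1 / q))) := by
  have hq0 : 0 < q := by linarith
  have hr0 : 0 < r := by linarith
  obtain ⟨m, hm1, hm⟩ := exists_large q (4 * r) (48 * 2 ^ (2 + 6 * r)) hq0
  have hm1' : (1:ℝ) ≤ m := by exact_mod_cast hm1
  set R : ℕ := ⌈r⌉₊ with hR
  have hRr : r ≤ R := Nat.le_ceil r
  set c₁ : ℕ := 42024 * m ^ 2 * 168096 ^ 2 with hc₁
  refine ⟨c₁ + 168096 + 3 * R + m + 1, by omega, ?_⟩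
  intro C hC
  have hC0 : 0 < C := by linarith
  -- the exponent
  set L : ℕ := ⌈Real.logb 2 (84048 * C)⌉₊ with hL
  have hlog : 0 ≤ Real.logb 2 (84048 * C) := Real.logb_nonneg (by norm_num) (by linarith)
  have hLlow : 84048 * C ≤ (2:ℝ) ^ L := by
    have h1 : Real.logb 2 (84048 * C) ≤ L := Nat.le_ceil _
    rw [Real.logb_le_iff_le_rpow (by norm_num) (by positivity), Real.rpow_natCast] at h1
    exact h1
  have hLup : (2:ℝ) ^ L ≤ 168096 * C := by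
    have h1 : (L:ℝ) < Real.logb 2 (84048 * C) + 1 := Nat.ceil_lt_add_one hlog
    have h2 : (2:ℝ) ^ (L:ℝ) ≤ 2 ^ (Real.logb 2 (84048 * C) + 1) :=
      Real.rpow_le_rpow_of_exponent_le (by norm_num) h1.le
    rw [Real.rpow_natCast, Real.rpow_add (by norm_num), Real.rpow_one,
      Real.rpow_logb (by norm_num) (by norm_num) (by positivity)] at h2
    linarith
  have hL1 : 1 ≤ L := by
    by_contra h0
    have : L = 0 := by omega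
    rw [this] at hLlow
    norm_num at hLlow
    linarith
  have hL1' : (1:ℝ) ≤ L := by exact_mod_cast hL1
  set n : ℕ := m * L with hn
  have hn1 : 1 ≤ n := Nat.one_le_iff_ne_zero.mpr (by positivity)
  have hLL : (L:ℝ) ≤ 2 ^ L := by exact_mod_cast (Nat.lt_two_pow_self (n := L)).le
  have h2L : (0:ℝ) < 2 ^ L := by positivity
  have h2L1 : (1:ℝ) ≤ 2 ^ L := one_le_pow₀ (by norm_num)
  have hkey : 48 * C ^ 2 * ((42024 * C) ^ r + 2) ^ 2 * (n:ℝ) ^ (4 * r) <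
      (2:ℝ) ^ ((n:ℝ) / q) := by
    have e1 : C ≤ 2 ^ L := by linarith
    have e2 : (42024 * C) ^ r + 2 ≤ ((2:ℝ) ^ L) ^ r := by
      have f1 : (42024 * C) ≤ 2 ^ L / 2 := by linarith
      have f2 : (42024 * C) ^ r ≤ (2 ^ L / 2) ^ r := Real.rpow_le_rpow (by positivity) f1 hr0.le
      have f3 : ((2:ℝ) ^ L / 2) ^ r = ((2:ℝ) ^ L) ^ r / 2 ^ r :=
        Real.div_rpow (by positivity) (by norm_num) r
      have f4 : (4:ℝ) ≤ 2 ^ r := by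
        calc (4:ℝ) = 2 ^ (2:ℝ) := by norm_num
          _ ≤ 2 ^ r := Real.rpow_le_rpow_of_exponent_le (by norm_num) hr
      have f5 : (4:ℝ) ≤ ((2:ℝ) ^ L) ^ r := by
        calc (4:ℝ) ≤ 2 ^ r := f4
          _ ≤ ((2:ℝ) ^ L) ^ r := Real.rpow_le_rpow (by norm_num) (by linarith) hr0.le
      have f6 : ((2:ℝ) ^ L) ^ r / 2 ^ r ≤ ((2:ℝ) ^ L) ^ r / 4 := by gcongr
      rw [f3] at f2
      linarith
    have e3 : (n:ℝ) ^ (4 * r) ≤ (m:ℝ) ^ (4 * r) * ((2:ℝ) ^ L) ^ (4 * r) := by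
      rw [← Real.mul_rpow (by positivity) (by positivity)]
      apply Real.rpow_le_rpow (by positivity) _ (by positivity)
      rw [hn]; push_cast
      gcongr
    have e4 : ((2:ℝ) ^ L) ^ 2 * (((2:ℝ) ^ L) ^ r) ^ 2 * ((2:ℝ) ^ L) ^ (4 * r) =
        ((2:ℝ) ^ L) ^ (2 + 6 * r) := by
      rw [← Real.rpow_natCast (((2:ℝ) ^ L) ^ r) 2, ← Real.rpow_mul h2L.le,
        ← Real.rpow_natCast ((2:ℝ) ^ L) 2, ← Real.rpow_add h2L, ← Real.rpow_add h2L]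
      congr 1
      push_cast
      ring
    have e5 : 48 * C ^ 2 * ((42024 * C) ^ r + 2) ^ 2 * (n:ℝ) ^ (4 * r) ≤
        48 * (m:ℝ) ^ (4 * r) * ((2:ℝ) ^ L) ^ (2 + 6 * r) := by
      calc 48 * C ^ 2 * ((42024 * C) ^ r + 2) ^ 2 * (n:ℝ) ^ (4 * r)
          ≤ 48 * ((2:ℝ) ^ L) ^ 2 * (((2:ℝ) ^ L) ^ r) ^ 2 *
            ((m:ℝ) ^ (4 * r) * ((2:ℝ) ^ L) ^ (4 * r)) := by
            have : 0 ≤ (42024 * C) ^ r + 2 := by positivity
            gcongr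
        _ = 48 * (m:ℝ) ^ (4 * r) *
            (((2:ℝ) ^ L) ^ 2 * (((2:ℝ) ^ L) ^ r) ^ 2 * ((2:ℝ) ^ L) ^ (4 * r)) := by ring
        _ = _ := by rw [e4]
    refine lt_of_le_of_lt e5 ?_
    -- the choice of `m`
    have e6 : 48 * (m:ℝ) ^ (4 * r) < 2 ^ ((m:ℝ) / q - (2 + 6 * r)) := by
      rw [Real.rpow_sub (by norm_num), lt_div_iff₀ (by positivity)]
      calc 48 * (m:ℝ) ^ (4 * r) * 2 ^ (2 + 6 * r) = 48 * 2 ^ (2 + 6 * r) * (m:ℝ) ^ (4 * r) := by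
            ring
        _ < _ := hm
    have e7 : 0 ≤ (m:ℝ) / q - (2 + 6 * r) := by
      by_contra hneg
      rw [not_le] at hneg
      have f1 : (2:ℝ) ^ ((m:ℝ) / q - (2 + 6 * r)) ≤ 1 :=
        Real.rpow_le_one_of_one_le_of_nonpos (by norm_num) hneg.le
      have f2 : 1 ≤ (m:ℝ) ^ (4 * r) := Real.one_le_rpow hm1' (by positivity)
      linarith
    have e8 : (2:ℝ) ^ ((m:ℝ) / q - (2 + 6 * r)) ≤
        (2:ℝ) ^ (((m:ℝ) / q - (2 + 6 * r)) * L) := by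
      apply Real.rpow_le_rpow_of_exponent_le (by norm_num)
      nlinarith
    have e9 : (2:ℝ) ^ (((m:ℝ) / q - (2 + 6 * r)) * L) * ((2:ℝ) ^ L) ^ (2 + 6 * r) =
        2 ^ ((n:ℝ) / q) := by
      rw [← Real.rpow_natCast 2 L, ← Real.rpow_mul (by norm_num), ← Real.rpow_add (by norm_num)]
      congr 1
      rw [hn]; push_cast
      ring
    rw [← e9]
    exact mul_lt_mul_of_pos_right (e6.trans_le e8) (by positivity)
  refine ⟨⌈((42024 * C) * (n:ℝ) ^ 2) ^ r⌉₊, 2 ^ n, ?_, by positivity, ?_, ?_⟩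
  · have : 0 < ((42024 * C) * (n:ℝ) ^ 2) ^ r := by positivity
    exact (Nat.ceil_pos.mpr this).ne'
  · have hnle : (n:ℝ) ≤ m * (168096 * C) := by
      rw [hn]; push_cast
      gcongr
      exact hLL.trans hLup
    have hn1' : (1:ℝ) ≤ n := by exact_mod_cast hn1
    have g1 : (((42024 * C) * (n:ℝ) ^ 2)) ≤ c₁ * C ^ 3 := by
      calc (42024 * C) * (n:ℝ) ^ 2 ≤ (42024 * C) * (m * (168096 * C)) ^ 2 := by gcongr
        _ = c₁ * C ^ 3 := by rw [hc₁]; push_cast; ring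
    have g0 : 1 ≤ (42024 * C) * (n:ℝ) ^ 2 :=
      one_le_mul_of_one_le_of_one_le (by linarith) (one_le_pow₀ hn1')
    have g2 : ((42024 * C) * (n:ℝ) ^ 2) ^ r ≤ (c₁ * C ^ 3) ^ R := by
      calc ((42024 * C) * (n:ℝ) ^ 2) ^ r ≤ ((42024 * C) * (n:ℝ) ^ 2) ^ (R:ℝ) :=
            Real.rpow_le_rpow_of_exponent_le g0 hRr
        _ = ((42024 * C) * (n:ℝ) ^ 2) ^ R := Real.rpow_natCast _ _
        _ ≤ _ := by gcongr
    have g3 : ((⌈((42024 * C) * (n:ℝ) ^ 2) ^ r⌉₊ : ℕ) : ℝ) ≤ 2 * (c₁ * C ^ 3) ^ R := by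
      have h1 : ((⌈((42024 * C) * (n:ℝ) ^ 2) ^ r⌉₊ : ℕ) : ℝ) <
          ((42024 * C) * (n:ℝ) ^ 2) ^ r + 1 := Nat.ceil_lt_add_one (by positivity)
      have h2 : 1 ≤ (c₁ * C ^ 3) ^ R := one_le_pow₀ (g0.trans g1)
      linarith
    have g4 : ((2 ^ n : ℕ) : ℝ) ≤ (168096 * C) ^ m := by
      have : ((2 ^ n : ℕ) : ℝ) = ((2:ℝ) ^ L) ^ m := by
        push_cast
        rw [← pow_mul, hn, mul_comm]
      rw [this]
      gcongr
    obtain ⟨a, ha⟩ : ∃ a : ℝ, a = ((c₁ + 168096 + 3 * R + m + 1 : ℕ) : ℝ) := ⟨_, rfl⟩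
    have ha1 : (c₁:ℝ) + 168096 ≤ a := by
      rw [ha]; push_cast
      have : (0:ℝ) ≤ 3 * R + m + 1 := by positivity
      linarith
    have hc₁0 : (0:ℝ) ≤ c₁ := by positivity
    have hc₁a : (c₁:ℝ) ≤ a ^ 3 := by
      have : (1:ℝ) ≤ a := by linarith
      calc (c₁:ℝ) ≤ a := by linarith
        _ = a ^ 1 := (pow_one a).symm
        _ ≤ a ^ 3 := pow_le_pow_right₀ this (by norm_num)
    have haC : 1 ≤ a * C := one_le_mul_of_one_le_of_one_le (by linarith) hC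
    push_cast
    have g5 : ((⌈((42024 * C) * (n:ℝ) ^ 2) ^ r⌉₊ : ℕ) : ℝ) * (2:ℝ) ^ n ≤
        (a * C) ^ (c₁ + 168096 + 3 * R + m + 1) := by
      calc ((⌈((42024 * C) * (n:ℝ) ^ 2) ^ r⌉₊ : ℕ) : ℝ) * (2:ℝ) ^ n
          ≤ (2 * (c₁ * C ^ 3) ^ R) * (168096 * C) ^ m := by
            push_cast at g4
            gcongr
        _ ≤ (a * C * ((a * C) ^ 3) ^ R) * (a * C) ^ m := by
            have k1 : 2 ≤ a * C := by nlinarith
            have k2 : (c₁:ℝ) * C ^ 3 ≤ (a * C) ^ 3 := by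
              rw [mul_pow]; gcongr
            have k3 : 168096 * C ≤ a * C := by
              apply mul_le_mul_of_nonneg_right _ hC0.le
              linarith
            gcongr
        _ = (a * C) ^ (3 * R + m + 1) := by ring
        _ ≤ _ := pow_le_pow_right₀ haC (by omega)
    rw [ha] at g5
    push_cast at g5
    exact g5
  · intro κ c
    exact vcore_of q r C hq hr hC n hn1 hkey _ rfl κ c

end Vale.Agent.P111.TW
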