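import Vale.Agent.P111.TW.AsmR
import Vale.Agent.P111.TW.Quant
import Vale.Agent.P111.TW.Cnt

/-!
Walsh systems: the explicit rate.
-/

set_option linter.unusedSectionVars false

namespace Vale.Agent.P111.TW

open Finset Vale.Agent.P111 Vale.Agent.P111.TK

/-- Multipliers removing small ranks, and generic tuples for the remaining ranks. -/
def KillGen (M M' R : ℕ) (K : ℝ) : Prop :=
  ∃ (rk : (Fin M' → Finset (Fin M)) → ℕ) (w : (Fin M → Fin M' → ℤˣ) → ℝ),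
    Killer M M' R K rk w ∧
    ∀ (D : ℕ) (Λ : Finset (Fin D → ℤˣ)) (B : Finset (Fin M' → Fin D → ℤˣ)),
      2 * 2 ^ M ≤ #Λ → 2 * (2 ^ M) ^ M' * #B < #Λ ^ (R + 1) →
      ∃ J : Fin M → Fin D → ℤˣ, (∀ i, J i ∈ Λ) ∧
        (∀ T : Finset (Fin M), T.Nonempty → JT J T ≠ 1) ∧
        ∀ g : Fin M' → Finset (Fin M), R < rk g → JG J g ∉ B

/-- The a priori bound for the number of large Fourier coefficients of `T^* ν`. -/
def CountBd {X : Type*} [NormedAddCommGroup X] [NormedSpace ℝ X] (T : X →L[ℝ] X) (d : ℝ) :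
    Prop :=
  ∀ (M' D : ℕ) (B e : ℝ), 0 < e → ∀ ν : (Fin M' → Fin D → ℤˣ) → (X →L[ℝ] ℝ), (∀ x, ‖ν x‖ ≤ B) →
    (#(Finset.univ.filter fun b : Fin M' → Fin D → ℤˣ =>
      e < ‖avg fun x => Chi b x • (ν x).comp T‖) : ℝ) * e ^ 2 ≤ d * B ^ 2

theorem rate_core (q r C ρ K : ℝ) (hq : 2 ≤ q) (hr : 2 ≤ r) (hC : 1 ≤ C) (hρ : 1 ≤ ρ)
    (hK : 1 ≤ K) {M M' R : ℕ} (hM : M ≠ 0) (hM' : M' ≠ 0) (hKG : KillGen M M' R K)
    (hcore : ∀ (κ : Finset (Fin M) → Finset (Fin M') → ℝ) (c : Finset (Fin M) → ℝ),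
      ¬ SY.VHyp κ c (6 * C ^ 2 * ρ * K * (M : ℝ) ^ (1 - 1 / r))
        (6 * C ^ 2 * ρ * K * (M : ℝ) ^ (1 - 1 / r) *
          (6 * C ^ 2 * ρ * K * (M' : ℝ) ^ (1 - 1 / q)))
        (6 * C ^ 2 * ρ * K * (M : ℝ) ^ (1 - 1 / r) *
          (6 * C ^ 2 * ρ * K * (M' : ℝ) ^ (1 - 1 / q))))
    (X : Type*) [NormedAddCommGroup X] [NormedSpace ℝ X] (T : X →L[ℝ] X) (d : ℝ) (hd0 : 0 ≤ d)
    (hd : CountBd T d) (hX : CotypeWith q C X) (hX' : CotypeWith r C (X →L[ℝ] ℝ)) (hT : ‖T‖ ≤ C)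
    (D : ℕ) (θ : (Fin D → ℤˣ) → (X →L[ℝ] ℝ)) (hθ : ∀ x, ‖θ x‖ ≤ 1)
    (Λ : Finset (Fin D → ℤˣ)) (hΛ : ∀ b ∈ Λ, 1 / ρ ≤ ‖fc T θ b‖) (hΛM : 2 * 2 ^ M ≤ #Λ) :
    (#Λ : ℝ) ^ (R + 1) ≤ 9 * C ^ 2 * 2 ^ (7 * (M * M')) * d := by
  classical
  have hC0 : 0 ≤ C := by linarith
  have hρ0 : 0 ≤ ρ := by linarith
  have hK0 : 0 ≤ K := by linarith
  obtain ⟨rk, w, hw, hgen⟩ := hKG
  obtain ⟨a, ha⟩ : ∃ a : ℝ, a = (M : ℝ) ^ (1 - 1 / r) := ⟨_, rfl⟩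
  obtain ⟨a', ha'⟩ : ∃ a' : ℝ, a' = (M' : ℝ) ^ (1 - 1 / q) := ⟨_, rfl⟩
  have ha1 : 1 ≤ a := by rw [ha]; exact SY.rpow_ge_one hM hr
  have ha1' : 1 ≤ a' := by rw [ha']; exact SY.rpow_ge_one hM' hq
  have ha0 : 0 ≤ a := by linarith
  have ha0' : 0 ≤ a' := by linarith
  rw [← ha, ← ha'] at hcore
  have hE : (0:ℝ) < ((2 : ℝ) ^ M) ^ M' := by positivity
  obtain ⟨e', he'⟩ : ∃ e' : ℝ, e' = (((2 : ℝ) ^ M) ^ M')⁻¹ := ⟨_, rfl⟩
  have he'0 : 0 < e' := by rw [he']; positivity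
  -- the lifts in the second variable
  have hlift : ∀ x : Fin M' → Fin D → ℤˣ, ∃ ν : (Fin M' → ℤˣ) → (X →L[ℝ] ℝ),
      (∀ δ, ‖ν δ‖ ≤ 3 * C * 1 * (M' : ℝ) ^ (1 - 1 / q)) ∧ (∀ δ, ν (-δ) = - ν δ) ∧
      ∀ k, wc {k} ν = θ (x k) := fun x =>
    lift_sup hq hC0 zero_le_one hX (fun k => θ (x k)) (fun k => hθ (x k))
  choose ν hν hνo hνk using hlift
  simp only [mul_one] at hν
  rw [← ha'] at hν
  have hν' : ∀ x δ, ‖(ν x δ).comp T‖ ≤ 3 * C * a' * C := fun x δ =>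
    (ContinuousLinearMap.opNorm_comp_le _ _).trans
      (mul_le_mul (hν x δ) hT (norm_nonneg _) (by positivity))
  have hη : ∀ x, ‖(θ x).comp T‖ ≤ C := fun x => by
    refine (ContinuousLinearMap.opNorm_comp_le _ _).trans ?_
    calc ‖θ x‖ * ‖T‖ ≤ 1 * C := mul_le_mul (hθ x) hT (norm_nonneg _) zero_le_one
      _ = C := one_mul C
  have hνo' : ∀ (x : Fin M' → Fin D → ℤˣ) (δ : Fin M' → ℤˣ),
      (ν x (-δ)).comp T = -((ν x δ).comp T) := by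
    intro x δ
    rw [hνo]
    rfl
  have hνk' : ∀ (x : Fin M' → Fin D → ℤˣ) (k : Fin M'),
      wc {k} (fun δ => (ν x δ).comp T) = (θ (x k)).comp T := by
    intro x k
    rw [wc_comp, hνk]
  -- the bad set
  set B : Finset (Fin M' → Fin D → ℤˣ) := Finset.univ.filter fun b =>
    ∃ U, e' < ‖nh (fun x δ => (ν x δ).comp T) U b‖ with hB
  have hkey : #Λ ^ (R + 1) ≤ 2 * (2 ^ M) ^ M' * #B := by
    by_contra hlt
    rw [not_le] at hlt
    obtain ⟨J, hJΛ, hJ, hJB⟩ := hgen D Λ B hΛM hlt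
    choose e he1 he2 using fun i => exists_unit (fc T θ (J i)) hρ (hΛ _ (hJΛ i))
    obtain ⟨Z, hZ1, hZ2, hZ3⟩ := lift_sup hr hC0 (by positivity : 0 ≤ 2 * ρ) hX'
      (fun i => NormedSpace.inclusionInDoubleDual ℝ X (e i)) (fun i =>
        (NormedSpace.double_dual_bound ℝ X (e i)).trans (he1 i))
    rw [← ha] at hZ1
    have hζη : ∀ i, (wc {i} Z) (avg fun x : Fin D → ℤˣ =>
        sg (chi (J i) x) • (θ x).comp T) = 1 := by
      intro i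
      rw [hZ3 i]
      exact he2 i
    have hgen' : ∀ g : Fin M' → Finset (Fin M), R < rk g →
        ‖nh (fun x δ => (ν x δ).comp T) (oddU g) (JG J g)‖ ≤ e' := by
      intro g hg
      have h1 := hJB g hg
      rw [hB, Finset.mem_filter, not_and] at h1
      have h2 := h1 (Finset.mem_univ _)
      push Not at h2
      exact h2 (oddU g)
    have hyp := vhypR hw (ν := fun x δ => (ν x δ).comp T) (η := fun x => (θ x).comp T) hJ hη
      hζη hZ1 hν' he'0.le hZ2 hνo' hνk' hgen'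
    have hn1 := (numerics2 hC hρ ha1 ha1').1
    have hn2 := (numerics2 hC hρ ha1 ha1').2
    have hKK : 6 * C ^ 2 * ρ * a * (6 * C ^ 2 * ρ * a') * K ≤
        6 * C ^ 2 * ρ * K * a * (6 * C ^ 2 * ρ * K * a') := by
      have h1 : 6 * C ^ 2 * ρ * K * a * (6 * C ^ 2 * ρ * K * a') =
          6 * C ^ 2 * ρ * a * (6 * C ^ 2 * ρ * a') * K * K := by ring
      rw [h1]
      have h2 : 0 ≤ 6 * C ^ 2 * ρ * a * (6 * C ^ 2 * ρ * a') * K := by positivity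
      nlinarith
    refine hcore _ _ (hyp.mono ?_ ?_ ?_)
    · have h1 : 3 * C * (2 * ρ) * a * C = 6 * C ^ 2 * ρ * a := by ring
      rw [h1]
      have h2 : 0 ≤ 6 * C ^ 2 * ρ * a := by positivity
      nlinarith
    · refine hn1.trans (le_trans ?_ hKK)
      have h2 : 0 ≤ 6 * C ^ 2 * ρ * a * (6 * C ^ 2 * ρ * a') := by positivity
      nlinarith
    · have h1 : ((2 : ℝ) ^ M) ^ M' * (K * (3 * C * (2 * ρ) * a * e')) =
          K * (3 * C * (2 * ρ) * a) := by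
        rw [he']
        field_simp
      rw [h1, ← mul_add]
      refine le_trans ?_ hKK
      rw [mul_comm K]
      exact mul_le_mul_of_nonneg_right hn2 hK0
  -- the size of the bad set
  have hcount : ∀ U : Finset (Fin M'), (#(Finset.univ.filter fun b : Fin M' → Fin D → ℤˣ =>
      e' < ‖nh (fun x δ => (ν x δ).comp T) U b‖) : ℝ) * e' ^ 2 ≤ d * (3 * C * a') ^ 2 := by
    intro U
    have h1 := hd M' D (3 * C * a') e' he'0 (fun x => wc U (ν x))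
      (fun x => norm_wc_le U _ (hν x))
    have h2 : ∀ b : Fin M' → Fin D → ℤˣ, nh (fun x δ => (ν x δ).comp T) U b =
        avg fun x => Chi b x • (wc U (ν x)).comp T := by
      intro b
      unfold nh
      refine avg_congr fun x => ?_
      rw [wc_comp]
    simp only [h2]
    exact h1
  have hBcard : (#B : ℝ) * e' ^ 2 ≤ 2 ^ M' * (d * (3 * C * a') ^ 2) := by
    have h1 : (#B : ℝ) ≤ ∑ U : Finset (Fin M'),
        (#(Finset.univ.filter fun b : Fin M' → Fin D → ℤˣ =>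
          e' < ‖nh (fun x δ => (ν x δ).comp T) U b‖) : ℝ) := by
      have h2 : B ⊆ Finset.univ.biUnion fun U : Finset (Fin M') =>
          Finset.univ.filter fun b : Fin M' → Fin D → ℤˣ =>
            e' < ‖nh (fun x δ => (ν x δ).comp T) U b‖ := by
        intro b hb
        rw [hB, Finset.mem_filter] at hb
        obtain ⟨U, hU⟩ := hb.2
        rw [Finset.mem_biUnion]
        exact ⟨U, Finset.mem_univ _, Finset.mem_filter.mpr ⟨Finset.mem_univ _, hU⟩⟩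
      exact_mod_cast (Finset.card_le_card h2).trans Finset.card_biUnion_le
    calc (#B : ℝ) * e' ^ 2 ≤ (∑ U : Finset (Fin M'),
        (#(Finset.univ.filter fun b : Fin M' → Fin D → ℤˣ =>
          e' < ‖nh (fun x δ => (ν x δ).comp T) U b‖) : ℝ)) * e' ^ 2 := by gcongr
      _ = ∑ U : Finset (Fin M'), (#(Finset.univ.filter fun b : Fin M' → Fin D → ℤˣ =>
          e' < ‖nh (fun x δ => (ν x δ).comp T) U b‖) : ℝ) * e' ^ 2 := by rw [Finset.sum_mul]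
      _ ≤ ∑ _U : Finset (Fin M'), d * (3 * C * a') ^ 2 :=
          Finset.sum_le_sum fun U _ => hcount U
      _ = _ := by
          rw [Finset.sum_const, nsmul_eq_mul, Finset.card_univ, Fintype.card_finset,
            Fintype.card_fin]
          push_cast
          ring
  -- numbers
  have hM1 : 1 ≤ M := Nat.one_le_iff_ne_zero.mpr hM
  have hM'1 : 1 ≤ M' := Nat.one_le_iff_ne_zero.mpr hM'
  have ha'M : a' ≤ 2 ^ M' := by
    have h1 : (1:ℝ) ≤ M' := by exact_mod_cast hM'1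
    have h2 : a' ≤ (M' : ℝ) ^ (1:ℝ) := by
      rw [ha']
      apply Real.rpow_le_rpow_of_exponent_le h1
      have : 0 < 1 / q := by positivity
      linarith
    rw [Real.rpow_one] at h2
    refine h2.trans ?_
    exact_mod_cast (Nat.lt_two_pow_self (n := M')).le
  have hE2 : e' ^ 2 * (((2 : ℝ) ^ M) ^ M') ^ 2 = 1 := by
    rw [he', ← mul_pow, inv_mul_cancel₀ hE.ne', one_pow]
  have hBfin : (#B : ℝ) ≤ 2 ^ M' * (d * (3 * C * a') ^ 2) * (((2 : ℝ) ^ M) ^ M') ^ 2 := by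
    calc (#B : ℝ) = #B * e' ^ 2 * (((2 : ℝ) ^ M) ^ M') ^ 2 := by
          rw [mul_assoc, hE2, mul_one]
      _ ≤ _ := by gcongr
  have hkey' : (#Λ : ℝ) ^ (R + 1) ≤ 2 * (2 ^ M) ^ M' * #B := by exact_mod_cast hkey
  calc (#Λ : ℝ) ^ (R + 1) ≤ 2 * (2 ^ M) ^ M' * #B := hkey'
    _ ≤ 2 * (2 ^ M) ^ M' *
        (2 ^ M' * (d * (3 * C * 2 ^ M') ^ 2) * (((2 : ℝ) ^ M) ^ M') ^ 2) := by
        refine mul_le_mul_of_nonneg_left (hBfin.trans ?_) (by positivity)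
        gcongr
    _ = 9 * C ^ 2 * 2 ^ (1 + 3 * (M * M') + 3 * M') * d := by
        rw [pow_add, pow_add, pow_mul' 2 3 (M * M'), pow_mul' 2 3 M', ← pow_mul 2 M M']
        ring
    _ ≤ 9 * C ^ 2 * 2 ^ (7 * (M * M')) * d := by
        have h1 : 1 + 3 * (M * M') + 3 * M' ≤ 7 * (M * M') := by
          have h2 : M' ≤ M * M' := Nat.le_mul_of_pos_left _ hM1
          omega
        have h3 : (2:ℝ) ^ (1 + 3 * (M * M') + 3 * M') ≤ 2 ^ (7 * (M * M')) :=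
          pow_le_pow_right₀ (by norm_num) h1
        gcongr

/-- The explicit rate. -/
theorem rate_of (hKG : ∃ K₀ : ℝ, 1 ≤ K₀ ∧ ∀ M M' R : ℕ, KillGen M M' R (K₀ * 2 ^ R))
    (q r C ρ : ℝ) (hq : 2 ≤ q) (hr : 2 ≤ r) (hC : 1 ≤ C) (hρ : 1 ≤ ρ) :
    ∃ A a : ℕ, ∀ (R : ℕ) (X : Type*) [NormedAddCommGroup X] [NormedSpace ℝ X]
      (T : X →L[ℝ] X) (d : ℝ), 0 ≤ d → CountBd T d →
      CotypeWith q C X → CotypeWith r C (X →L[ℝ] ℝ) → ‖T‖ ≤ C →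
      ∀ (D : ℕ) (θ : (Fin D → ℤˣ) → (X →L[ℝ] ℝ)), (∀ x, ‖θ x‖ ≤ 1) →
      ∀ Λ : Finset (Fin D → ℤˣ), (∀ b ∈ Λ, 1 / ρ ≤ ‖fc T θ b‖) → 2 ^ (A * 2 ^ (a * R)) ≤ #Λ →
      (#Λ : ℝ) ^ R ≤ d := by
  obtain ⟨K₀, hK₀, hKG⟩ := hKG
  obtain ⟨a, ha1, hvq⟩ := vcore_quant q r hq hr
  have hC0 : 0 ≤ C := by linarith
  have hρ0 : 0 ≤ ρ := by linarith
  have hK₀0 : 0 ≤ K₀ := by linarith
  obtain ⟨c₂, hc₂⟩ := exists_nat_ge ((a * (6 * C ^ 2 * ρ * K₀)) ^ a : ℝ)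
  obtain ⟨c₄, hc₄⟩ := exists_nat_ge (9 * C ^ 2 : ℝ)
  refine ⟨7 * c₂ + c₄ + 1, a, ?_⟩
  intro R X _ _ T d hd0 hd hX hX' hT D θ hθ Λ hΛ hN
  have h2R : (1:ℝ) ≤ 2 ^ R := one_le_pow₀ (by norm_num)
  have hK : 1 ≤ K₀ * 2 ^ R := one_le_mul_of_one_le_of_one_le hK₀ h2R
  have hC₁ : 1 ≤ 6 * C ^ 2 * ρ * (K₀ * 2 ^ R) := by
    have h1 : 1 ≤ C ^ 2 := one_le_pow₀ hC
    have h2 : 1 ≤ C ^ 2 * ρ * (K₀ * 2 ^ R) :=
      one_le_mul_of_one_le_of_one_le (one_le_mul_of_one_le_of_one_le h1 hρ) hK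
    linarith
  obtain ⟨M, M', hM, hM', hMM, hcore⟩ := hvq _ hC₁
  have hmm : M * M' ≤ c₂ * 2 ^ (a * R) := by
    have h1 : ((M * M' : ℕ) : ℝ) ≤ c₂ * 2 ^ (a * R) := by
      refine hMM.trans ?_
      have h2 : (a : ℝ) * (6 * C ^ 2 * ρ * (K₀ * 2 ^ R)) =
          (a * (6 * C ^ 2 * ρ * K₀)) * 2 ^ R := by ring
      rw [h2, mul_pow, ← pow_mul, mul_comm R a]
      exact mul_le_mul_of_nonneg_right hc₂ (by positivity)
    exact_mod_cast h1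
  have hM1 : 1 ≤ M := Nat.one_le_iff_ne_zero.mpr hM
  have hM'1 : 1 ≤ M' := Nat.one_le_iff_ne_zero.mpr hM'
  have hpow : 1 ≤ 2 ^ (a * R) := Nat.one_le_two_pow
  have hexp : c₄ + 7 * (M * M') ≤ (7 * c₂ + c₄ + 1) * 2 ^ (a * R) := by
    calc c₄ + 7 * (M * M') ≤ c₄ * 2 ^ (a * R) + 7 * (c₂ * 2 ^ (a * R)) := by
          have := Nat.le_mul_of_pos_right c₄ hpow
          omega
      _ ≤ _ := by
          have : (7 * c₂ + c₄ + 1) * 2 ^ (a * R) =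
            c₄ * 2 ^ (a * R) + 7 * (c₂ * 2 ^ (a * R)) + 2 ^ (a * R) := by ring
          omega
  have hexp2 : 1 + M ≤ (7 * c₂ + c₄ + 1) * 2 ^ (a * R) := by
    have h1 : M ≤ M * M' := Nat.le_mul_of_pos_right M hM'1
    have h2 : (7 * c₂ + c₄ + 1) * 2 ^ (a * R) =
        7 * (c₂ * 2 ^ (a * R)) + c₄ * 2 ^ (a * R) + 2 ^ (a * R) := by ring
    omega
  have hN2 : 2 * 2 ^ M ≤ #Λ := by
    calc 2 * 2 ^ M = 2 ^ (1 + M) := by ring
      _ ≤ 2 ^ ((7 * c₂ + c₄ + 1) * 2 ^ (a * R)) := Nat.pow_le_pow_right (by norm_num) hexp2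
      _ ≤ _ := hN
  have hmain := rate_core q r C ρ (K₀ * 2 ^ R) hq hr hC hρ hK hM hM' (hKG M M' R) hcore X T d hd0
    hd hX hX' hT D θ hθ Λ hΛ hN2
  have hN0 : 0 < #Λ := lt_of_lt_of_le (by positivity) hN2
  have hN0' : (0:ℝ) < #Λ := by exact_mod_cast hN0
  have h1 : (#Λ : ℝ) * (#Λ : ℝ) ^ R ≤ #Λ * d := by
    calc (#Λ : ℝ) * (#Λ : ℝ) ^ R = (#Λ : ℝ) ^ (R + 1) := (pow_succ' _ _).symm
      _ ≤ 9 * C ^ 2 * 2 ^ (7 * (M * M')) * d := hmain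
      _ ≤ 2 ^ c₄ * 2 ^ (7 * (M * M')) * d := by
          have h2 : 9 * C ^ 2 ≤ (2:ℝ) ^ c₄ := by
            refine hc₄.trans ?_
            exact_mod_cast (Nat.lt_two_pow_self (n := c₄)).le
          gcongr
      _ = 2 ^ (c₄ + 7 * (M * M')) * d := by rw [pow_add]
      _ ≤ #Λ * d := by
          refine mul_le_mul_of_nonneg_right ?_ hd0
          have h3 : 2 ^ (c₄ + 7 * (M * M')) ≤ #Λ :=
            (Nat.pow_le_pow_right (by norm_num) hexp).trans hN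
          exact_mod_cast h3
  exact le_of_mul_le_mul_left h1 hN0'

/-- Operators of finite rank. -/
theorem countBd_finrank {X : Type*} [NormedAddCommGroup X] [NormedSpace ℝ X] (T : X →L[ℝ] X)
    [FiniteDimensional ℝ (LinearMap.range (T : X →ₗ[ℝ] X))] {C : ℝ} (hT : ‖T‖ ≤ C) :
    CountBd T (Module.finrank ℝ (LinearMap.range (T : X →ₗ[ℝ] X)) * C ^ 2) := by
  intro M' D B e he ν hν
  have hC0 : 0 ≤ C := (norm_nonneg _).trans hT
  have hB0 : 0 ≤ B := (norm_nonneg _).trans (hν 1)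
  have hfd : FiniteDimensional ℝ (LinearMap.range (T : X →ₗ[ℝ] X) →L[ℝ] ℝ) :=
    (LinearMap.toContinuousLinearMap (𝕜 := ℝ) (E := LinearMap.range (T : X →ₗ[ℝ] X))
      (F' := ℝ)).finiteDimensional
  have hrank : Module.finrank ℝ (LinearMap.range (fac T)) ≤
      Module.finrank ℝ (LinearMap.range (T : X →ₗ[ℝ] X)) :=
    (LinearMap.finrank_range_le (fac T)).trans (le_of_eq (finrank_dual _))
  have h1 := count_Chi (LinearMap.range (fac T)) he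
      (fun x : Fin M' → Fin D → ℤˣ => (ν x).comp T)
      (fun x => comp_mem T _) (B := B * C) (fun x =>
        (ContinuousLinearMap.opNorm_comp_le _ _).trans (mul_le_mul (hν x) hT (norm_nonneg _) hB0))
  refine h1.trans ?_
  calc (Module.finrank ℝ (LinearMap.range (fac T)) : ℝ) * (B * C) ^ 2
      ≤ (Module.finrank ℝ (LinearMap.range (T : X →ₗ[ℝ] X)) : ℝ) * (B * C) ^ 2 := by gcongr
    _ = _ := by ring

end Vale.Agent.P111.TW
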